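import Mathlib

/-!
# P237: the ball constant lies below `2 ^ n`
-/

namespace Vale.Agent.P237

open MeasureTheory Real Set
open scoped ENNReal

/-- Lebesgue volume in Euclidean `ℝ^n`. -/
noncomputable def euclVolume (n : ℕ) (s : Set (EuclideanSpace ℝ (Fin n))) : ℝ := (volume s).toReal

/-- Volume of the Euclidean unit ball of `ℝ^m`. -/
noncomputable def unitBallVolume (m : ℕ) : ℝ := euclVolume m (Metric.closedBall 0 1)

theorem unitBallVolume_eq (m : ℕ) :
    unitBallVolume m = √π ^ m / Real.Gamma ((m : ℝ) / 2 + 1) := by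
  rcases Nat.eq_zero_or_pos m with rfl | hm
  · have : Metric.closedBall (0 : EuclideanSpace ℝ (Fin 0)) 1 = univ :=
      eq_univ_of_forall fun x => by rw [Subsingleton.elim x 0]; simp
    rw [unitBallVolume, euclVolume, this, ← (PiLp.volume_preserving_toLp (Fin 0)).measure_preimage
      MeasurableSet.univ.nullMeasurableSet, preimage_univ, volume_pi, Measure.pi_univ]
    simp
  · haveI : Nonempty (Fin m) := Fin.pos_iff_nonempty.1 hm
    rw [unitBallVolume, euclVolume, EuclideanSpace.volume_closedBall, ENNReal.toReal_mul, ENNReal.toReal_pow,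
      ENNReal.toReal_ofReal zero_le_one, one_pow, one_mul, Fintype.card_fin,
      ENNReal.toReal_ofReal (div_nonneg (by positivity) (Real.Gamma_nonneg_of_nonneg (by positivity)))]

theorem unitBallVolume_pos (m : ℕ) : 0 < unitBallVolume m := by
  rw [unitBallVolume_eq]
  exact div_pos (by positivity) (Real.Gamma_pos_of_pos (by positivity))

theorem unitBallVolume_add_two (m : ℕ) :
    unitBallVolume (m + 2) = unitBallVolume m * (2 * π / ((m : ℝ) + 2)) := by
  rw [unitBallVolume_eq, unitBallVolume_eq]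
  push_cast
  rw [show ((m : ℝ) + 2) / 2 + 1 = ((m : ℝ) / 2 + 1) + 1 by ring,
    Real.Gamma_add_one (by positivity), pow_add, Real.sq_sqrt Real.pi_nonneg]
  have := Real.Gamma_pos_of_pos (show (0 : ℝ) < (m : ℝ) / 2 + 1 by positivity)
  field_simp
  try ring

theorem ratio_sq (m : ℕ) :
    unitBallVolume m ^ 2 ≤ unitBallVolume (m + 1) ^ 2 * (((m : ℝ) + 2) / (2 * π)) := by
  set x : ℝ := ((m : ℝ) + 2) / 2 with hx
  have hx0 : 0 < x := by positivity
  have hG : Real.Gamma (x + 1 / 2) ^ 2 ≤ x * Real.Gamma x ^ 2 := by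
    have h := Real.Gamma_mul_add_mul_le_rpow_Gamma_mul_rpow_Gamma (s := x) (t := x + 1) hx0
      (by linarith) (a := 1 / 2) (b := 1 / 2) (by norm_num) (by norm_num) (by norm_num)
    rw [show (1 / 2 : ℝ) * x + 1 / 2 * (x + 1) = x + 1 / 2 by ring, Real.Gamma_add_one hx0.ne',
      ← Real.sqrt_eq_rpow, ← Real.sqrt_eq_rpow] at h
    have hg := (Real.Gamma_pos_of_pos hx0).le
    calc Real.Gamma (x + 1 / 2) ^ 2
        ≤ (√(Real.Gamma x) * √(x * Real.Gamma x)) ^ 2 :=
          pow_le_pow_left₀ (Real.Gamma_nonneg_of_nonneg (by positivity)) h 2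
      _ = x * Real.Gamma x ^ 2 := by
          rw [mul_pow, Real.sq_sqrt hg, Real.sq_sqrt (by positivity)]; ring
  rw [unitBallVolume_eq, unitBallVolume_eq, div_pow, div_pow]
  push_cast
  rw [show ((m : ℝ) + 1) / 2 + 1 = x + 1 / 2 by rw [hx]; ring,
    show (m : ℝ) / 2 + 1 = x by rw [hx]; ring,
    show ((m : ℝ) + 2) / (2 * π) = x / π by rw [hx]; field_simp]
  have h1 : 0 < Real.Gamma x ^ 2 := pow_pos (Real.Gamma_pos_of_pos hx0) 2
  have h2 : 0 < Real.Gamma (x + 1 / 2) ^ 2 := pow_pos (Real.Gamma_pos_of_pos (by positivity)) 2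
  rw [div_mul_div_comm, div_le_div_iff₀ h1 (by positivity), ← pow_mul, ← pow_mul,
    show (m + 1) * 2 = m * 2 + 2 by ring, pow_add, Real.sq_sqrt Real.pi_nonneg]
  have hp : 0 ≤ √π ^ (m * 2) * π := by positivity
  calc √π ^ (m * 2) * (Real.Gamma (x + 1 / 2) ^ 2 * π)
      = √π ^ (m * 2) * π * Real.Gamma (x + 1 / 2) ^ 2 := by ring
    _ ≤ √π ^ (m * 2) * π * (x * Real.Gamma x ^ 2) := mul_le_mul_of_nonneg_left hG hp
    _ = √π ^ (m * 2) * π * x * Real.Gamma x ^ 2 := by ring

theorem ball_constant_aux : ∀ m : ℕ, 1 ≤ m →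
    unitBallVolume (m + 1) ^ (m + 2) < 2 ^ (m + 2) * unitBallVolume (m + 2) ^ m
  | 0, h => absurd h (by omega)
  | 1, _ => by
    simp only [unitBallVolume_eq]
    norm_num [Real.Gamma_two]
    rw [show (5 : ℝ) / 2 = (3 / 2 : ℝ) + 1 by norm_num, Real.Gamma_add_one (by norm_num),
      show (3 : ℝ) / 2 = 1 / 2 + 1 by norm_num, Real.Gamma_add_one (by norm_num),
      Real.Gamma_one_half_eq]
    have hs : 0 < √π := by positivity
    have h2 := Real.sq_sqrt Real.pi_nonneg
    have hpi := Real.pi_lt_d2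
    rw [show (√π) ^ 3 = π * √π by rw [pow_succ, h2]]
    have h6 : (√π) ^ 6 = π ^ 3 := by rw [show 6 = 2 * 3 by norm_num, pow_mul, h2]
    field_simp
    nlinarith [Real.pi_gt_three, mul_pos Real.pi_pos Real.pi_pos]
  | 2, _ => by
    rw [unitBallVolume_eq, unitBallVolume_eq]
    norm_num [show (4 : ℝ) / 2 + 1 = ((2 : ℕ) : ℝ) + 1 by norm_num, Real.Gamma_nat_eq_factorial]
    rw [show (5 : ℝ) / 2 = (3 / 2 : ℝ) + 1 by norm_num, Real.Gamma_add_one (by norm_num),
      show (3 : ℝ) / 2 = 1 / 2 + 1 by norm_num,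
      Real.Gamma_add_one (by norm_num), Real.Gamma_one_half_eq]
    have h2 := Real.sq_sqrt Real.pi_nonneg
    rw [show (√π) ^ 3 = π * √π by rw [pow_succ, h2],
      show (√π) ^ 4 = π * π by rw [show 4 = 2 * 2 by norm_num, pow_mul, h2]; ring]
    have hs : 0 < √π := by positivity
    field_simp
    nlinarith [Real.pi_gt_three, mul_pos Real.pi_pos Real.pi_pos]
  | m + 3, _ => by
    have ih := ball_constant_aux (m + 1) (by omega)
    set a := unitBallVolume (m + 2) with ha
    set b := unitBallVolume (m + 3) with hb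
    have hb0 : 0 < b := unitBallVolume_pos _
    have ha0 : 0 < a := unitBallVolume_pos _
    have e1 : unitBallVolume (m + 3 + 1) = a * (2 * π / ((m : ℝ) + 4)) := by
      rw [show m + 3 + 1 = (m + 2) + 2 by ring, unitBallVolume_add_two, ← ha]
      push_cast
      ring_nf
    have e2 : unitBallVolume (m + 3 + 2) = b * (2 * π / ((m : ℝ) + 5)) := by
      rw [unitBallVolume_add_two, ← hb]
      push_cast
      ring_nf
    have hr : a ^ 2 ≤ b ^ 2 * (((m : ℝ) + 4) / (2 * π)) := by
      have h := ratio_sq (m + 2)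
      rw [show m + 2 + 1 = m + 3 by ring, ← ha, ← hb] at h
      push_cast at h
      rwa [show (m : ℝ) + 2 + 2 = (m : ℝ) + 4 by ring] at h
    set s : ℝ := 2 * π / ((m : ℝ) + 4) with hs
    set t : ℝ := 2 * π / ((m : ℝ) + 5) with ht
    have hs0 : 0 < s := by positivity
    have ht0 : 0 < t := by positivity
    have hst : s ^ (m + 5) * ((m : ℝ) + 4) / (2 * π) ≤ 4 * t ^ (m + 3) := by
      have e : s = t * (1 + 1 / ((m : ℝ) + 4)) := by rw [hs, ht]; field_simp; ring
      have hexp : (1 + 1 / ((m : ℝ) + 4)) ^ (m + 3) ≤ Real.exp 1 := by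
        calc (1 + 1 / ((m : ℝ) + 4)) ^ (m + 3) ≤ Real.exp (1 / ((m : ℝ) + 4)) ^ (m + 3) :=
              pow_le_pow_left₀ (by positivity) (by
                linarith [Real.add_one_le_exp (1 / ((m : ℝ) + 4))]) _
          _ ≤ Real.exp 1 := by
              rw [← Real.exp_nat_mul]
              refine Real.exp_le_exp.2 ?_
              push_cast
              rw [mul_one_div, div_le_one (by positivity)]
              linarith
      rcases Nat.eq_zero_or_pos m with rfl | hm
      · rw [hs, ht]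
        norm_num
        field_simp
        nlinarith [Real.pi_lt_d2, Real.pi_gt_three, pow_pos Real.pi_pos 3, pow_pos Real.pi_pos 4]
      have hm1 : (1 : ℝ) ≤ m := by exact_mod_cast hm
      calc s ^ (m + 5) * ((m : ℝ) + 4) / (2 * π)
          = s ^ (m + 3) * s := by rw [pow_add s (m + 3) 2, hs]; field_simp
        _ = t ^ (m + 3) * ((1 + 1 / ((m : ℝ) + 4)) ^ (m + 3) * s) := by
            rw [show s ^ (m + 3) = t ^ (m + 3) * (1 + 1 / ((m : ℝ) + 4)) ^ (m + 3) by
              rw [← mul_pow, ← e]]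
            ring
        _ ≤ t ^ (m + 3) * 4 := by
            refine mul_le_mul_of_nonneg_left ?_ (by positivity)
            refine (mul_le_mul_of_nonneg_right hexp hs0.le).trans ?_
            rw [hs, ← mul_div_assoc, div_le_iff₀ (by positivity)]
            nlinarith [Real.exp_one_lt_d9, Real.pi_lt_d2, Real.pi_gt_three, Real.exp_pos 1]
        _ = 4 * t ^ (m + 3) := by ring
    rw [e1, e2, show m + 3 + 2 = m + 5 by ring]
    calc (a * s) ^ (m + 5) = a ^ (m + 3) * a ^ 2 * s ^ (m + 5) := by rw [mul_pow, ← pow_add]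
      _ ≤ a ^ (m + 3) * (b ^ 2 * (((m : ℝ) + 4) / (2 * π))) * s ^ (m + 5) := by gcongr
      _ = a ^ (m + 3) * b ^ 2 * (s ^ (m + 5) * ((m : ℝ) + 4) / (2 * π)) := by ring
      _ ≤ a ^ (m + 3) * b ^ 2 * (4 * t ^ (m + 3)) := by gcongr
      _ < 2 ^ (m + 3) * b ^ (m + 1) * b ^ 2 * (4 * t ^ (m + 3)) := by
          have : a ^ (m + 3) < 2 ^ (m + 3) * b ^ (m + 1) := by
            have h := ih
            rw [show m + 1 + 2 = m + 3 by ring] at h
            exact h
          gcongr
      _ = 2 ^ (m + 5) * (b * t) ^ (m + 3) := by ring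

theorem ball_constant_lt {n : ℕ} (hn : 3 ≤ n) :
    unitBallVolume (n - 1) ^ n * unitBallVolume n ^ (2 - (n : ℤ)) < 2 ^ n := by
  obtain ⟨m, rfl⟩ : ∃ m, n = m + 2 := ⟨n - 2, by omega⟩
  have h := ball_constant_aux m (by omega)
  rw [show m + 2 - 1 = m + 1 by omega, show (2 : ℤ) - ((m + 2 : ℕ) : ℤ) = -(m : ℤ) by push_cast; ring,
    zpow_neg, zpow_natCast, ← div_eq_mul_inv, div_lt_iff₀ (pow_pos (unitBallVolume_pos _) _)]
  exact h

end Vale.Agent.P237
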