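import Vale.Agent.P237.Class
import Vale.Agent.P237.Numbers

/-!
# P237: from sweeps to orthogonal projections
-/

namespace Vale.Agent.P237

open MeasureTheory Set Function
open scoped ENNReal Pointwise RealInnerProductSpace

section
variable {E : Type*} [NormedAddCommGroup E] [InnerProductSpace ℝ E] [FiniteDimensional ℝ E]

/-- The image of `K` under orthogonal projection on the subspace `U`. -/
noncomputable def orthShadow (U : Submodule ℝ E) (K : Set E) : Set U :=
  U.orthogonalProjectionOnto '' K

variable [MeasurableSpace E] [BorelSpace E]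

/-- Lebesgue volume inside a subspace. -/
noncomputable def subspaceVolume (U : Submodule ℝ E) (s : Set U) : ℝ := (volume s).toReal

/-- The volume of the orthogonal projection of `K` on the hyperplane `u^⊥`. -/
noncomputable def projVolume (K : Set E) (u : E) : ℝ :=
  subspaceVolume (ℝ ∙ u)ᗮ (orthShadow (ℝ ∙ u)ᗮ K)

/-- The body cut out by the projection volumes in all unit directions. -/
noncomputable def genProjBody (K : Set E) : Set E :=
  {y | ∀ u : E, ‖u‖ = 1 → ⟪y, u⟫ ≤ projVolume K u}

end

/-- The projection body: `y` is in it iff `⟪y, u⟫` is at most the volume of the orthogonal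
projection of `K` on `u^⊥`, for every unit vector `u`. -/
noncomputable def projBody {n : ℕ} (K : Set (EuclideanSpace ℝ (Fin n))) :
    Set (EuclideanSpace ℝ (Fin n)) :=
  genProjBody K

/-- A set of coordinate vectors, seen in Euclidean space. -/
def embed {n : ℕ} (K : Set (Fin n → ℝ)) : Set (EuclideanSpace ℝ (Fin n)) := WithLp.toLp 2 '' K

/-- The gain along a unit vector is the volume of the orthogonal projection. -/
theorem gain_eq_proj {m : ℕ} {K : Set (Pt (m + 1))} (hK : IsCompact K) (hKc : Convex ℝ K)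
    {u : EuclideanSpace ℝ (Fin (m + 1))} (hu : ‖u‖ = 1) :
    gain K (WithLp.ofLp u)
      = (volume ((ℝ ∙ u)ᗮ.orthogonalProjection '' (WithLp.toLp 2 '' K))).toReal := by
  classical
  obtain ⟨b, hb⟩ := Orthonormal.exists_orthonormalBasis_extension_of_card_eq
    (𝕜 := ℝ) (E := EuclideanSpace ℝ (Fin (m + 1))) (ι := Fin (m + 1)) (v := fun _ => u)
    (s := {Fin.last m}) (by simp) (by
      refine ⟨fun i => hu, fun i j hij => absurd (Subtype.ext ?_) hij⟩
      exact (mem_singleton_iff.1 i.2).trans (mem_singleton_iff.1 j.2).symm)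
  have hbl : b (Fin.last m) = u := hb _ rfl
  set ψ : (Pt m × ℝ) ≃ₗ[ℝ] Pt (m + 1) :=
    (((snocLin m).trans (WithLp.linearEquiv 2 ℝ (Pt (m + 1))).symm).trans
      b.repr.symm.toLinearEquiv).trans (WithLp.linearEquiv 2 ℝ (Pt (m + 1))) with hψ
  have happly : ∀ p : Pt m × ℝ, WithLp.toLp 2 (ψ p)
      = (∑ i : Fin m, p.1 i • b i.castSucc) + p.2 • u := by
    intro p
    show b.repr.symm (WithLp.toLp 2 (snocLin m p)) = _
    rw [← b.sum_repr_symm, Fin.sum_univ_castSucc, hbl]
    simp [snocLin_apply]
  have hmp : MeasurePreserving ψ volume volume := by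
    show MeasurePreserving (fun p => WithLp.ofLp (b.repr.symm (WithLp.toLp 2 (snocLin m p))))
      volume volume
    exact (PiLp.volume_preserving_ofLp _).comp ((b.repr.symm.measurePreserving).comp
      ((PiLp.volume_preserving_toLp _).comp (measurePreserving_snocLin m)))
  have hψv : ∀ A : Set (Pt m × ℝ), (volume (ψ '' A)).toReal = 1 * (volume A).toReal := fun A => by
    have he : MeasurableEmbedding ψ := ψ.toContinuousLinearEquiv.toHomeomorph.measurableEmbedding
    rw [one_mul]
    congr 1
    conv_lhs => rw [← hmp.map_eq, he.map_apply]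
    rw [ψ.injective.preimage_image]
  set A := ψ.symm '' K with hA
  have hAk : IsCompact A := hK.image ψ.symm.toLinearMap.continuous_of_finiteDimensional
  have hAc : Convex ℝ A := hKc.linear_image ψ.symm.toLinearMap
  have hψ1 : ψ (0, 1) = WithLp.ofLp u := by
    have h := congrArg WithLp.ofLp (happly (0, 1))
    simpa using h
  have hgain : gain K (WithLp.ofLp u) = (volume (Prod.fst '' A)).toReal := by
    have h := gain_image ψ hψv A ((0 : Pt m), (1 : ℝ))
    rw [show ψ '' A = K by simp [hA, image_image], hψ1, gain_vertical hAk hAc zero_le_one,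
      one_mul, one_mul] at h
    exact h
  set U := (ℝ ∙ u)ᗮ
  have hmem : ∀ i : Fin m, b i.castSucc ∈ U := fun i => by
    rw [Submodule.mem_orthogonal_singleton_iff_inner_right, ← hbl]
    exact b.orthonormal.2 (Fin.castSucc_lt_last i).ne'
  let ι : EuclideanSpace ℝ (Fin m) →ₗ[ℝ] U :=
    { toFun := fun x => ∑ i, x i • (⟨b i.castSucc, hmem i⟩ : U)
      map_add' := fun x y => Subtype.ext (by simp [add_smul, Finset.sum_add_distrib])
      map_smul' := fun c x => Subtype.ext (by simp [Finset.smul_sum, smul_smul]) }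
  have hι : ∀ x, ((ι x : U) : EuclideanSpace ℝ (Fin (m + 1))) = ∑ i, x i • b i.castSucc := fun x => by
    simp [ι]
  have hnorm : ∀ x, ‖ι x‖ = ‖x‖ := by
    intro x
    have horth : Orthonormal ℝ fun i : Fin m => b i.castSucc :=
      b.orthonormal.comp _ (Fin.castSucc_injective m)
    rw [← Real.sqrt_sq (norm_nonneg (ι x)), EuclideanSpace.norm_eq,
      ← real_inner_self_eq_norm_sq, Submodule.coe_inner, hι, horth.inner_sum]
    congr 1
    exact Finset.sum_congr rfl fun i _ => by simp [sq]
  haveI : Fact (Module.finrank ℝ (EuclideanSpace ℝ (Fin (m + 1))) = m + 1) :=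
    ⟨finrank_euclideanSpace_fin⟩
  have hdim : Module.finrank ℝ U = m :=
    Submodule.finrank_orthogonal_span_singleton (by
      intro h0; rw [h0, norm_zero] at hu; norm_num at hu)
  let φ : EuclideanSpace ℝ (Fin m) ≃ₗᵢ[ℝ] U :=
    (LinearIsometry.mk ι hnorm).toLinearIsometryEquiv (by rw [hdim, finrank_euclideanSpace_fin])
  have hproj : ∀ p : Pt m × ℝ, U.orthogonalProjection (WithLp.toLp 2 (ψ p)) = φ (WithLp.toLp 2 p.1) := by
    intro p
    have e : ((φ (WithLp.toLp 2 p.1) : U) : EuclideanSpace ℝ (Fin (m + 1)))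
        = ∑ i : Fin m, p.1 i • b i.castSucc := by
      show ((ι (WithLp.toLp 2 p.1) : U) : EuclideanSpace ℝ (Fin (m + 1))) = _
      rw [hι]
    have hu0 : U.orthogonalProjection u = 0 :=
      Submodule.orthogonalProjection_mem_subspace_orthogonalComplement_eq_zero
        (Submodule.le_orthogonal_orthogonal _ (Submodule.mem_span_singleton_self u))
    rw [happly, map_add, map_smul, hu0, smul_zero, add_zero, ← e,
      Submodule.orthogonalProjection_mem_subspace_eq_self]
  have himg : U.orthogonalProjection '' (WithLp.toLp 2 '' K)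
      = φ '' (WithLp.toLp 2 '' (Prod.fst '' A)) := by
    rw [show K = ψ '' A by simp [hA, image_image]]
    simp only [image_image, hproj]
  rw [hgain, himg]
  congr 1
  have hP : IsCompact (WithLp.toLp 2 '' (Prod.fst '' A)) :=
    (hAk.image continuous_fst).image (PiLp.continuous_toLp 2 _)
  rw [← φ.measurePreserving.measure_preimage
    (hP.image φ.continuous).measurableSet.nullMeasurableSet, preimage_image_eq _ φ.injective,
    ← (PiLp.volume_preserving_toLp (Fin m)).measure_preimage hP.measurableSet.nullMeasurableSet,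
    preimage_image_eq _ (WithLp.toLp_injective 2)]

theorem projBody_eq {m : ℕ} {K : Set (Pt (m + 1))} (hK : IsCompact K) (hKc : Convex ℝ K) :
    projBody (WithLp.toLp 2 '' K) = WithLp.toLp 2 '' gainBody K := by
  ext y
  constructor
  · intro hy
    refine ⟨WithLp.ofLp y, fun v => ?_, by simp⟩
    by_cases hv : v = 0
    · subst hv; simp [gain_zero]
    set w : EuclideanSpace ℝ (Fin (m + 1)) := WithLp.toLp 2 v with hw
    have hw0 : 0 < ‖w‖ := norm_pos_iff.2 fun h => hv (by simpa [hw] using congrArg WithLp.ofLp h)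
    have h1 : ‖‖w‖⁻¹ • w‖ = 1 := by
      rw [norm_smul, norm_inv, norm_norm, inv_mul_cancel₀ hw0.ne']
    have h : ⟪y, ‖w‖⁻¹ • w⟫ ≤ (volume ((ℝ ∙ (‖w‖⁻¹ • w))ᗮ.orthogonalProjection ''
        (WithLp.toLp 2 '' K))).toReal := hy _ h1
    rw [← gain_eq_proj hK hKc h1, inner_smul_right,
      show WithLp.ofLp (‖w‖⁻¹ • w) = ‖w‖⁻¹ • v by simp [hw],
      gain_smul hK hKc _ (inv_nonneg.2 hw0.le)] at h
    have h' := le_of_mul_le_mul_left h (inv_pos.2 hw0)
    simpa [EuclideanSpace.inner_eq_star_dotProduct, hw, dotProduct_comm] using h'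
  · rintro ⟨z, hz, rfl⟩ u hu
    show ⟪WithLp.toLp 2 z, u⟫ ≤ (volume ((ℝ ∙ u)ᗮ.orthogonalProjection ''
        (WithLp.toLp 2 '' K))).toReal
    rw [← gain_eq_proj hK hKc hu]
    simpa [EuclideanSpace.inner_eq_star_dotProduct, dotProduct_comm] using hz (WithLp.ofLp u)

theorem petty_built {n : ℕ} (hn : 3 ≤ n) {K : Set (Pt n)} (h : Built n K) :
    unitBallVolume (n - 1) ^ n * unitBallVolume n ^ (2 - (n : ℤ)) * euclVolume n (embed K) ^ (n - 1)
      < euclVolume n (projBody (embed K)) := by
  obtain ⟨m, rfl⟩ : ∃ m, n = m + 1 := ⟨n - 1, by omega⟩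
  obtain ⟨-, hc, hv, hpos, hb⟩ := built_bound h
  have hvol : ∀ {s : Set (Pt (m + 1))}, MeasurableSet s →
      volume (WithLp.toLp 2 '' s : Set (EuclideanSpace ℝ (Fin (m + 1)))) = volume s := by
    intro s hs
    have he : MeasurableEmbedding (WithLp.toLp 2 : Pt (m + 1) → EuclideanSpace ℝ (Fin (m + 1))) :=
      (MeasurableEquiv.toLp 2 (Pt (m + 1))).measurableEmbedding
    rw [← (PiLp.volume_preserving_toLp (Fin (m + 1))).measure_preimage
      (he.measurableSet_image.2 hs).nullMeasurableSet, preimage_image_eq _ (WithLp.toLp_injective 2)]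
  simp only [euclVolume, embed]
  rw [projBody_eq hc hv, hvol hc.measurableSet, hvol (isClosed_gainBody K).measurableSet]
  refine lt_of_lt_of_le ?_ hb
  exact mul_lt_mul_of_pos_right (ball_constant_lt hn) (pow_pos hpos _)

end Vale.Agent.P237
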