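import Vale.Agent.P237.Cone
import Vale.Agent.P219.BM

/-!
# P237: the planar case and the class of iterated cones and cylinders
-/

namespace Vale.Agent.P237

open MeasureTheory Set Function
open scoped ENNReal Pointwise

theorem det_le_gain {K : Set (Pt 2)} (hK : IsCompact K) (hKc : Convex ℝ K) {a b : Pt 2}
    (ha : a ∈ K) (hb : b ∈ K) (u : Pt 2) :
    |(a - b) 0 * u 1 - (a - b) 1 * u 0| ≤ gain K u := by
  classical
  set z := a - b with hz
  set M : Matrix (Fin 2) (Fin 2) ℝ := !![z 0, u 0; z 1, u 1] with hM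
  have hdet : LinearMap.det (Matrix.toLin' M) = z 0 * u 1 - z 1 * u 0 := by
    rw [LinearMap.det_toLin', Matrix.det_fin_two]
    simp [hM]
    ring
  by_cases h0 : z 0 * u 1 - z 1 * u 0 = 0
  · rw [h0, abs_zero]; exact gain_nonneg hK u
  obtain ⟨S, hS⟩ : ∃ S : Pt 2 ≃ₗ[ℝ] Pt 2, (S : Pt 2 →ₗ[ℝ] Pt 2) = Matrix.toLin' M :=
    ⟨LinearEquiv.ofIsUnitDet (v := Pi.basisFun ℝ (Fin 2)) (v' := Pi.basisFun ℝ (Fin 2))
      (f := Matrix.toLin' M) (by
        rw [LinearMap.toMatrix_eq_toMatrix', LinearMap.toMatrix'_toLin']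
        rw [LinearMap.det_toLin'] at hdet
        rw [hdet]
        exact isUnit_iff_ne_zero.2 h0), rfl⟩
  obtain ⟨-, hvol⟩ := exists_factor S
  rw [hS, hdet] at hvol
  set T : (Pt 1 × ℝ) ≃ₗ[ℝ] Pt 2 := (snocLin 1).trans S
  have hTv : ∀ A : Set (Pt 1 × ℝ), (volume (T '' A)).toReal
      = |z 0 * u 1 - z 1 * u 0| * (volume A).toReal := fun A => by
    rw [show (T : Pt 1 × ℝ → Pt 2) '' A = S '' (snocLin 1 '' A) by rw [← image_comp]; rfl, hvol,
      volume_image_snocLin]
  have hT : ∀ p : Pt 1 × ℝ, T p = p.1 0 • z + p.2 • u := by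
    intro p
    show (S : Pt 2 →ₗ[ℝ] Pt 2) (snocLin 1 p) = _
    rw [hS, Matrix.toLin'_apply]
    have h0 : (Fin.snoc p.1 p.2 : Fin 2 → ℝ) 0 = p.1 0 := by
      rw [show (0 : Fin 2) = Fin.castSucc 0 from rfl, Fin.snoc_castSucc]
    have h1 : (Fin.snoc p.1 p.2 : Fin 2 → ℝ) 1 = p.2 := by
      rw [show (1 : Fin 2) = Fin.last 1 from rfl, Fin.snoc_last]
    funext i
    fin_cases i <;> simp [Matrix.mulVec, dotProduct, Fin.sum_univ_two, hM, snocLin_apply, h0, h1] <;>
      ring
  set A := T.symm '' K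
  have hA : IsCompact A := hK.image T.symm.toLinearMap.continuous_of_finiteDimensional
  have hAc : Convex ℝ A := hKc.linear_image T.symm.toLinearMap
  have hg : gain K u = |z 0 * u 1 - z 1 * u 0| * (volume (Prod.fst '' A)).toReal := by
    have h := gain_image T hTv A ((0 : Pt 1), (1 : ℝ))
    rw [show T '' A = K by simp [A, image_image], gain_vertical hA hAc zero_le_one, one_mul,
      hT] at h
    simpa using h
  set P := Prod.fst '' A
  have hdiff : (T.symm a).1 0 - (T.symm b).1 0 = 1 := by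
    have : T.symm z = ((fun _ => (1 : ℝ)), (0 : ℝ)) := by
      rw [LinearEquiv.symm_apply_eq, hT]
      simp
    rw [hz, map_sub] at this
    have := congrArg (fun p : Pt 1 × ℝ => p.1 0) this
    simpa using this
  have hP : 1 ≤ (volume P).toReal := by
    have hsub : Icc (fun _ => (T.symm b).1 0) (fun _ => (T.symm a).1 0) ⊆ P := by
      intro x hx
      have hPc : Convex ℝ P := hAc.linear_image (LinearMap.fst ℝ (Pt 1) ℝ)
      have hxa : (T.symm a).1 ∈ P := ⟨_, mem_image_of_mem _ ha, rfl⟩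
      have hxb : (T.symm b).1 ∈ P := ⟨_, mem_image_of_mem _ hb, rfl⟩
      have hx0 : (T.symm b).1 0 ≤ x 0 ∧ x 0 ≤ (T.symm a).1 0 := ⟨hx.1 0, hx.2 0⟩
      have := hPc hxb hxa (a := (T.symm a).1 0 - x 0) (b := x 0 - (T.symm b).1 0)
        (by linarith) (by linarith) (by linarith)
      convert this using 1
      funext i
      rw [Subsingleton.elim i 0]
      simp only [Pi.add_apply, Pi.smul_apply, smul_eq_mul]
      linear_combination (-(x 0)) * hdiff
    refine le_trans ?_ (ENNReal.toReal_mono (hA.image continuous_fst).measure_lt_top.ne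
      (measure_mono hsub))
    rw [Real.volume_Icc_pi_toReal fun _ => by linarith]
    simp [hdiff]
  rw [hg]
  exact le_mul_of_one_le_right (abs_nonneg _) hP

theorem planar_bound {K : Set (Pt 2)} (hK : IsCompact K) (hKc : Convex ℝ K) :
    4 * (volume K).toReal ≤ (volume (gainBody K)).toReal := by
  classical
  set R : Pt 2 →ₗ[ℝ] Pt 2 := Matrix.toLin' !![0, -1; 1, 0] with hR
  set D := (fun p : Pt 2 × Pt 2 => p.1 - p.2) '' (K ×ˢ K)
  have hD : IsCompact D := (hK.prod hK).image (by fun_prop)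
  have hsub : R '' D ⊆ gainBody K := by
    rintro _ ⟨_, ⟨⟨a, b⟩, ⟨ha, hb⟩, rfl⟩, rfl⟩ u
    refine le_trans (le_trans ?_ (le_abs_self _)) (det_le_gain hK hKc ha hb u)
    simp [hR, Matrix.toLin'_apply, Matrix.mulVec, dotProduct, Fin.sum_univ_two]
    linarith
  have hvR : volume (R '' D) = volume D := by
    rw [Measure.addHaar_image_linearMap, hR, LinearMap.det_toLin', Matrix.det_fin_two]
    simp
  have hhalf : volume K ≤ volume ((2 : ℝ)⁻¹ • D) := by
    set e := WithLp.toLp (p := 2) (V := Pt 2)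
    have hm : ∀ {s : Set (Pt 2)}, IsCompact s →
        MeasurableSet (e '' s) ∧ volume (e '' s) = volume s := by
      intro s hs
      have hc := hs.image (PiLp.continuous_toLp 2 _)
      refine ⟨hc.measurableSet, ?_⟩
      rw [← (PiLp.volume_preserving_toLp (Fin 2)).measure_preimage hc.measurableSet.nullMeasurableSet]
      exact congrArg _ (preimage_image_eq _ (WithLp.toLp_injective 2))
    have hn : IsCompact (-K) := hK.neg
    have hh : IsCompact ((2 : ℝ)⁻¹ • D) := hD.smul _
    have h := Vale.Agent.P219.bm_mult (d := 2) (p := 1 / 2) (q := 1 / 2) (by norm_num) (by norm_num)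
      (by norm_num) (hm hK).1 (hm hn).1 (hm hh).1 (by
        rintro _ ⟨x, hx, rfl⟩ _ ⟨y, hy, rfl⟩
        refine ⟨(2 : ℝ)⁻¹ • (x + y), smul_mem_smul_set ⟨(x, -y), ⟨hx, hy⟩, by simp⟩, ?_⟩
        simp [e, smul_add])
    rw [(hm hK).2, (hm hn).2, (hm hh).2, Measure.measure_neg, ← ENNReal.rpow_add_of_nonneg _ _
      (by norm_num) (by norm_num), show (1 / 2 + 1 / 2 : ℝ) = 1 by norm_num, ENNReal.rpow_one] at h
    exact h
  rw [volume_smul_set _ (by norm_num)] at hhalf
  have h1 := ENNReal.toReal_mono (ENNReal.mul_ne_top ENNReal.ofReal_ne_top hD.measure_lt_top.ne) hhalf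
  rw [ENNReal.toReal_mul, ENNReal.toReal_ofReal (by norm_num)] at h1
  have h2 := ENNReal.toReal_mono (gainBody_finite _) (measure_mono hsub)
  rw [hvR] at h2
  norm_num at h1
  linarith

theorem affine_gainBody {n : ℕ} (T : Pt n ≃ₗ[ℝ] Pt n) (v : Pt n) (K : Set (Pt n)) :
    (volume (gainBody ((fun x => T x + v) '' K))).toReal * |LinearMap.det (T : Pt n →ₗ[ℝ] Pt n)|
      = |LinearMap.det (T : Pt n →ₗ[ℝ] Pt n)| ^ n * (volume (gainBody K)).toReal := by
  classical
  obtain ⟨hd, hT⟩ := exists_factor T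
  set d := |LinearMap.det (T : Pt n →ₗ[ℝ] Pt n)|
  set R : Pt n →ₗ[ℝ] Pt n := Matrix.toLin' (LinearMap.toMatrix' (T : Pt n →ₗ[ℝ] Pt n)).transpose
  have hadj : ∀ y u : Pt n, R y ⬝ᵥ u = y ⬝ᵥ T u := by
    intro y u
    simp only [R, Matrix.toLin'_apply, Matrix.mulVec_transpose, ← Matrix.dotProduct_mulVec]
    rw [LinearMap.toMatrix'_mulVec]
    rfl
  have hdetR : |LinearMap.det R| = d := by
    simp [R, d, LinearMap.det_toMatrix']
  have hpre : gainBody ((fun x => T x + v) '' K) = R ⁻¹' (d • gainBody K) := by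
    ext y
    rw [mem_preimage, mem_smul_set_iff_inv_smul_mem₀ hd.ne']
    have hgain : ∀ u, gain ((fun x => T x + v) '' K) (T u) = d * gain K u := fun u => by
      rw [show (fun x => T x + v) '' K = (fun x => x + v) '' (T '' K) by rw [image_image],
        gain_translate, gain_image T hT]
    constructor
    · intro h u
      rw [smul_dotProduct, smul_eq_mul, inv_mul_le_iff₀ hd, hadj, ← hgain]
      exact h _
    · intro h u
      obtain ⟨w, rfl⟩ := T.surjective u
      have := h w
      rw [smul_dotProduct, smul_eq_mul, inv_mul_le_iff₀ hd, hadj] at this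
      rw [hgain]
      exact this
  have hne : LinearMap.det R ≠ 0 := by
    intro h0
    rw [h0, abs_zero] at hdetR
    linarith
  rw [hpre, Measure.addHaar_preimage_linearMap _ hne, volume_smul_set _ hd.le,
    ENNReal.toReal_mul, ENNReal.toReal_mul, ENNReal.toReal_ofReal (abs_nonneg _),
    ENNReal.toReal_ofReal (pow_nonneg hd.le _), abs_inv, hdetR]
  field_simp

/-- Bodies built from planar convex bodies by cones, cylinders and affine maps. -/
inductive Built : ∀ n : ℕ, Set (Fin n → ℝ) → Prop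
  | planar (K : Set (Fin 2 → ℝ)) (hc : IsCompact K) (hv : Convex ℝ K) (hi : (interior K).Nonempty) :
      Built 2 K
  | cone {n : ℕ} {L : Set (Fin n → ℝ)} (hL : Built n L) (a : Fin n → ℝ) (H : ℝ) (hH : 0 < H) :
      Built (n + 1) (convexHull ℝ
        (insert (Fin.snoc a H) ((fun x => (Fin.snoc x 0 : Fin (n + 1) → ℝ)) '' L)))
  | cylinder {n : ℕ} {L : Set (Fin n → ℝ)} (hL : Built n L) (H : ℝ) (hH : 0 < H) :
      Built (n + 1) ((fun p : (Fin n → ℝ) × ℝ => (Fin.snoc p.1 p.2 : Fin (n + 1) → ℝ)) ''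
        (L ×ˢ Set.Icc 0 H))
  | affine {n : ℕ} {K : Set (Fin n → ℝ)} (hK : Built n K) (T : (Fin n → ℝ) ≃ₗ[ℝ] (Fin n → ℝ))
      (v : Fin n → ℝ) : Built n ((fun x => T x + v) '' K)

theorem built_bound {n : ℕ} {K : Set (Pt n)} (h : Built n K) :
    2 ≤ n ∧ IsCompact K ∧ Convex ℝ K ∧ 0 < (volume K).toReal ∧
      2 ^ n * (volume K).toReal ^ (n - 1) ≤ (volume (gainBody K)).toReal := by
  induction h with
  | planar K hc hv hi =>
    refine ⟨le_rfl, hc, hv, ENNReal.toReal_pos ?_ hc.measure_lt_top.ne, ?_⟩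
    · exact (Measure.measure_pos_of_nonempty_interior volume hi).ne'
    · norm_num
      exact planar_bound hc hv
  | @cone m L _ a H hH ih =>
    obtain ⟨hm, hc, hv, hpos, hb⟩ := ih
    obtain ⟨j, rfl⟩ : ∃ j, m = j + 1 := ⟨m - 1, by omega⟩
    have hne : L.Nonempty := nonempty_iff_ne_empty.2 fun he => by simp [he] at hpos
    have he : convexHull ℝ (insert (Fin.snoc a H)
        ((fun x => (Fin.snoc x 0 : Fin (j + 1 + 1) → ℝ)) '' L))
        = snocLin (j + 1) '' coneSet L a H := by
      rw [coneSet, show (snocLin (j + 1) : Pt (j + 1) × ℝ → Pt (j + 1 + 1))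
        = (snocLin (j + 1)).toLinearMap from rfl, LinearMap.image_convexHull, image_insert_eq,
        prod_singleton, image_image]
      rfl
    obtain ⟨hC, hCc, -⟩ := coneSet_props hc hv hne a H
    rw [he]
    refine ⟨by omega, hC.image (continuous_snocLin _), hCc.linear_image (snocLin _).toLinearMap,
      ?_, ?_⟩
    · rw [volume_image_snocLin, volume_coneSet hc hv hne a hH]
      positivity
    · refine le_trans ?_ (cone_step hc hv hne a hH)
      rw [volume_image_snocLin, volume_coneSet hc hv hne a hH]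
      set B := (volume L).toReal
      have hj : (0 : ℝ) < (j : ℝ) + 1 := by positivity
      refine le_trans ?_ (mul_le_mul_of_nonneg_left (mul_le_mul_of_nonneg_left hb (by positivity))
        hpos.le)
      simp only [Nat.add_sub_cancel, Nat.cast_add, Nat.cast_one]
      have hbern : (2 : ℝ) * ((j : ℝ) + 1) ^ (j + 1) ≤ ((j : ℝ) + 1 + 1) ^ (j + 1) := by
        have h := one_add_mul_le_pow (a := 1 / ((j : ℝ) + 1)) (le_trans (by norm_num)
          (div_nonneg zero_le_one hj.le)) (j + 1)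
        push_cast at h
        rw [mul_one_div, div_self hj.ne'] at h
        have e : (1 + 1 / ((j : ℝ) + 1)) ^ (j + 1) = ((j : ℝ) + 1 + 1) ^ (j + 1) / ((j : ℝ) + 1) ^ (j + 1) := by
          rw [← div_pow]
          congr 1
          field_simp
        rw [e, le_div_iff₀ (by positivity)] at h
        linarith
      calc (2 : ℝ) ^ (j + 1 + 1) * (H / ((j : ℝ) + 1 + 1) * B) ^ (j + 1)
          = 2 ^ (j + 1) * H ^ (j + 1) * B ^ (j + 1) * (2 / ((j : ℝ) + 1 + 1) ^ (j + 1)) := by
            rw [mul_pow, div_pow]; ring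
        _ ≤ 2 ^ (j + 1) * H ^ (j + 1) * B ^ (j + 1) * (1 / ((j : ℝ) + 1) ^ (j + 1)) := by
            refine mul_le_mul_of_nonneg_left ?_ (by positivity)
            rw [div_le_div_iff₀ (by positivity) (by positivity), one_mul]
            exact hbern
        _ = B * ((H / ((j : ℝ) + 1)) ^ (j + 1) * (2 ^ (j + 1) * B ^ j)) := by
            rw [div_pow]; ring
  | @cylinder m L _ H hH ih =>
    obtain ⟨hm, hc, hv, hpos, hb⟩ := ih
    have he : ((fun p : (Fin m → ℝ) × ℝ => (Fin.snoc p.1 p.2 : Fin (m + 1) → ℝ)) ''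
        (L ×ˢ Set.Icc 0 H)) = snocLin m '' cylSet L H := rfl
    rw [he]
    refine ⟨by omega, (hc.prod isCompact_Icc).image (continuous_snocLin _),
      (hv.prod (convex_Icc 0 H)).linear_image (snocLin _).toLinearMap, ?_, ?_⟩
    · rw [volume_image_snocLin, volume_cylSet L hH.le]
      positivity
    · refine le_trans ?_ (cylinder_step hc hv hH)
      rw [volume_image_snocLin, volume_cylSet L hH.le]
      set B := (volume L).toReal
      refine le_trans (le_of_eq ?_) (mul_le_mul_of_nonneg_left (mul_le_mul_of_nonneg_left hb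
        (by positivity)) (by positivity))
      obtain ⟨j, rfl⟩ : ∃ j, m = j + 1 := ⟨m - 1, by omega⟩
      simp only [Nat.add_sub_cancel]
      rw [mul_pow]
      ring
  | @affine m K _ T v ih =>
    obtain ⟨hm, hc, hv, hpos, hb⟩ := ih
    obtain ⟨hd, hT⟩ := exists_factor T
    have he : (fun x => T x + v) '' K = (fun x => x + v) '' (T '' K) := by rw [image_image]
    have hvol : (volume ((fun x => T x + v) '' K)).toReal
        = |LinearMap.det (T : Pt m →ₗ[ℝ] Pt m)| * (volume K).toReal := by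
      rw [he, volume_translate, hT]
    refine ⟨hm, hc.image (T.toLinearMap.continuous_of_finiteDimensional.add continuous_const), ?_,
      ?_, ?_⟩
    · rw [he, show (fun x => x + v) '' (T '' K) = (T '' K) + {v} from add_singleton.symm]
      exact (hv.linear_image T.toLinearMap).add (convex_singleton v)
    · rw [hvol]; positivity
    · rw [hvol]
      refine le_of_mul_le_mul_right ?_ hd
      rw [affine_gainBody]
      obtain ⟨j, rfl⟩ : ∃ j, m = j + 1 := ⟨m - 1, by omega⟩
      simp only [Nat.add_sub_cancel] at hb ⊢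
      calc (2 : ℝ) ^ (j + 1) * (|LinearMap.det (T : Pt (j + 1) →ₗ[ℝ] Pt (j + 1))| * (volume K).toReal) ^ j
            * |LinearMap.det (T : Pt (j + 1) →ₗ[ℝ] Pt (j + 1))|
          = |LinearMap.det (T : Pt (j + 1) →ₗ[ℝ] Pt (j + 1))| ^ (j + 1)
            * (2 ^ (j + 1) * (volume K).toReal ^ j) := by rw [mul_pow]; ring
        _ ≤ _ := mul_le_mul_of_nonneg_left hb (by positivity)

end Vale.Agent.P237
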