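import Vale.Agent.P237.Steps

/-!
# P237: the cone step
-/

namespace Vale.Agent.P237

open MeasureTheory Set Function
open scoped ENNReal Pointwise

variable {k : ℕ}

theorem gain_cone_up {L : Set (Pt k)} (hL : IsCompact L) (hLc : Convex ℝ L) (hne : L.Nonempty)
    (a : Pt k) (H : ℝ) (w : Pt k) {t : ℝ} (ht : 0 ≤ t) :
    t * hullVol L (a - H • w) ≤ gain (coneSet L a H) (t • w, t) := by
  obtain ⟨hC, hCc, -⟩ := coneSet_props hL hLc hne a H
  rw [gain_upward hC hCc w ht]
  refine mul_le_mul_of_nonneg_left ?_ ht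
  have hsub : convexHull ℝ (insert (a - H • w) L)
      ⊆ (fun p : Pt k × ℝ => p.1 - p.2 • w) '' coneSet L a H := by
    have hcv : Convex ℝ ((fun p : Pt k × ℝ => p.1 - p.2 • w) '' coneSet L a H) :=
      hCc.linear_image (LinearMap.fst ℝ (Pt k) ℝ - (LinearMap.snd ℝ (Pt k) ℝ).smulRight w)
    refine convexHull_min (insert_subset ⟨(a, H), subset_convexHull ℝ _ (mem_insert _ _), rfl⟩ ?_) hcv
    exact fun x hx => ⟨(x, 0), subset_convexHull ℝ _ (mem_insert_of_mem _ ⟨hx, rfl⟩), by simp⟩
  have hfin : volume ((fun p : Pt k × ℝ => p.1 - p.2 • w) '' coneSet L a H) ≠ ⊤ :=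
    (hC.image (by fun_prop)).measure_lt_top.ne
  exact ENNReal.toReal_mono hfin (measure_mono hsub)

theorem cone_step {L : Set (Pt (k + 1))} (hL : IsCompact L) (hLc : Convex ℝ L)
    (hne : L.Nonempty) (a : Pt (k + 1)) {H : ℝ} (hH : 0 < H) :
    (volume L).toReal * ((H / ((k : ℝ) + 1)) ^ (k + 1) * (volume (gainBody L)).toReal)
      ≤ (volume (gainBody (snocLin (k + 1) '' coneSet L a H))).toReal := by
  classical
  set B := (volume L).toReal
  have hB : 0 ≤ B := ENNReal.toReal_nonneg
  set G := {y : Pt (k + 1) | ∀ u, y ⬝ᵥ u ≤ H / ((k : ℝ) + 1) * gain L u}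
  set D := snocLin (k + 1) ⁻¹' gainBody (snocLin (k + 1) '' coneSet L a H)
  have hr : 0 < H / ((k : ℝ) + 1) := by positivity
  have hD : IsClosed D := (isClosed_gainBody _).preimage (continuous_snocLin _)
  have hG : IsClosed G := by
    simp only [G, setOf_forall]
    exact isClosed_iInter fun u => isClosed_le
      (continuous_finset_sum _ fun i _ => (continuous_apply i).mul continuous_const) continuous_const
  have hfib : ∀ y ∈ G, ENNReal.ofReal B ≤ volume (fib D y) := by
    intro y hy
    set φ : Pt (k + 1) → ℝ := fun w => hullVol L (a - H • w) - y ⬝ᵥ w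
    set ψ : Pt (k + 1) → ℝ := fun w => -(y ⬝ᵥ w) - hullVol L (a - H • w)
    have key : ∀ w w', ψ w' + B ≤ φ w := by
      intro w w'
      have h := two_pyramids hL hLc hne (a - H • w) (a - H • w')
      rw [show (a - H • w') - (a - H • w) = H • (w - w') by rw [smul_sub]; abel,
        gain_smul hL hLc _ hH.le] at h
      have h2 := hy (w - w')
      rw [dotProduct_sub] at h2
      have e : H * gain L (w - w') / ((k : ℝ) + 1) = H / ((k : ℝ) + 1) * gain L (w - w') := by ring
      simp only [φ, ψ]
      linarith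
    set lo := ⨆ w, ψ w
    have hbdd : BddAbove (range ψ) := ⟨φ 0 - B, by
      rintro _ ⟨w, rfl⟩
      linarith [key 0 w]⟩
    have hlo : ∀ w, ψ w ≤ lo := fun w => le_ciSup hbdd w
    have hhi : ∀ w, lo + B ≤ φ w := fun w => by
      have : lo ≤ φ w - B := ciSup_le fun w' => by linarith [key w w']
      linarith
    have hsub : Icc lo (lo + B) ⊆ fib D y := by
      intro s hs
      show snocLin (k + 1) (y, s) ∈ gainBody _
      intro v
      obtain ⟨⟨u, t⟩, rfl⟩ := (snocLin (k + 1)).surjective v
      rw [dot_snoc, gain_snoc]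
      rcases lt_trichotomy t 0 with ht | rfl | ht
      · have h1 := gain_cone_up hL hLc hne a H (t⁻¹ • u) (t := -t) (by linarith)
        rw [show ((-t) • (t⁻¹ • u), -t) = -(u, t) by
          simp [smul_smul, ht.ne], gain_neg'] at h1
        have h2 := (hlo (t⁻¹ • u)).trans hs.1
        simp only [ψ, dotProduct_smul, smul_eq_mul] at h2
        refine le_trans ?_ h1
        have h3 := mul_le_mul_of_nonneg_left h2 (by linarith : 0 ≤ -t)
        have e : t * (t⁻¹ * (y ⬝ᵥ u)) = y ⬝ᵥ u := by rw [← mul_assoc, mul_inv_cancel₀ ht.ne, one_mul]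
        linarith
      · rw [mul_zero, add_zero]
        exact (hy u).trans (gain_cone_flat hL hLc hne a hH u)
      · have h1 := gain_cone_up hL hLc hne a H (t⁻¹ • u) (t := t) ht.le
        rw [show t • (t⁻¹ • u) = u by simp [smul_smul, ht.ne']] at h1
        have h2 := hs.2.trans (hhi (t⁻¹ • u))
        simp only [φ, dotProduct_smul, smul_eq_mul] at h2
        refine le_trans ?_ h1
        have h3 := mul_le_mul_of_nonneg_left h2 ht.le
        have e : t * (t⁻¹ * (y ⬝ᵥ u)) = y ⬝ᵥ u := by rw [← mul_assoc, mul_inv_cancel₀ ht.ne', one_mul]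
        linarith
    refine le_trans ?_ (measure_mono hsub)
    rw [Real.volume_Icc, add_sub_cancel_left]
  have hvol : ENNReal.ofReal B * volume G ≤ volume D := by
    rw [volume_eq_lintegral_fib hD.measurableSet, ← setLIntegral_const,
      ← lintegral_indicator hG.measurableSet]
    refine lintegral_mono fun y => ?_
    by_cases hy : y ∈ G
    · rw [indicator_of_mem hy]; exact hfib y hy
    · rw [indicator_of_notMem hy]; exact zero_le
  have hDe : snocLin (k + 1) '' D = gainBody (snocLin (k + 1) '' coneSet L a H) :=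
    image_preimage_eq _ (snocLin (k + 1)).surjective
  have h := ENNReal.toReal_mono (gainBody_finite _)
    (hvol.trans (le_of_eq (by rw [← hDe, volume_image_snocLin])))
  rw [ENNReal.toReal_mul, ENNReal.toReal_ofReal hB, volume_scaled_gainBody hr] at h
  exact h

end Vale.Agent.P237
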