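import Mathlib

/-!
# P237: coordinates, linear changes of variables and convex fibres
-/

namespace Vale.Agent.P237

open MeasureTheory Set Function
open scoped ENNReal

/-- `ℝ^k` as coordinate functions. -/
abbrev Pt (k : ℕ) := Fin k → ℝ

/-- Appending a last coordinate. -/
def snocLin (k : ℕ) : (Pt k × ℝ) ≃ₗ[ℝ] Pt (k + 1) where
  toFun p := Fin.snoc p.1 p.2
  invFun z := (Fin.init z, z (Fin.last k))
  map_add' p q := by
    funext i
    refine Fin.lastCases ?_ (fun j => ?_) i <;> simp
  map_smul' c p := by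
    funext i
    refine Fin.lastCases ?_ (fun j => ?_) i <;> simp
  left_inv p := by simp
  right_inv z := by simp

theorem snocLin_apply (k : ℕ) (p : Pt k × ℝ) : snocLin k p = Fin.snoc p.1 p.2 := rfl

theorem continuous_snocLin (k : ℕ) : Continuous (snocLin k) :=
  (snocLin k).toLinearMap.continuous_of_finiteDimensional

theorem measurePreserving_snocLin (k : ℕ) :
    MeasurePreserving (snocLin k) volume volume := by
  have h := (volume_preserving_piFinSuccAbove (fun _ : Fin (k + 1) => ℝ) (Fin.last k)).symm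
  have hs : MeasurePreserving (Prod.swap : Pt k × ℝ → ℝ × Pt k) volume volume :=
    Measure.measurePreserving_swap
  have e : (snocLin k : Pt k × ℝ → Pt (k + 1))
      = (MeasurableEquiv.piFinSuccAbove (fun _ : Fin (k + 1) => ℝ) (Fin.last k)).symm ∘ Prod.swap := by
    funext p
    simp [snocLin_apply, MeasurableEquiv.piFinSuccAbove_symm_apply, Fin.snocEquiv, Prod.swap]
  rw [e]
  exact h.comp hs

theorem volume_image_snocLin {k : ℕ} (A : Set (Pt k × ℝ)) :
    volume (snocLin k '' A) = volume A := by
  have he : MeasurableEmbedding (snocLin k) :=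
    ((snocLin k).toContinuousLinearEquiv.toHomeomorph).measurableEmbedding
  conv_lhs => rw [← (measurePreserving_snocLin k).map_eq, he.map_apply]
  rw [(snocLin k).injective.preimage_image]

/-- A linear change of variables multiplies volumes by a positive constant. -/
theorem exists_factor {k : ℕ} (T : Pt k ≃ₗ[ℝ] Pt k) :
    0 < |LinearMap.det (T : Pt k →ₗ[ℝ] Pt k)| ∧ ∀ A : Set (Pt k),
      (volume (T '' A)).toReal = |LinearMap.det (T : Pt k →ₗ[ℝ] Pt k)| * (volume A).toReal := by
  refine ⟨abs_pos.2 (LinearEquiv.isUnit_det' T).ne_zero, fun A => ?_⟩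
  rw [show (T : Pt k → Pt k) '' A = (T : Pt k →ₗ[ℝ] Pt k) '' A from rfl,
    Measure.addHaar_image_linearMap, ENNReal.toReal_mul, ENNReal.toReal_ofReal (abs_nonneg _)]

/-- A direction `d ≠ 0` is the vertical one in suitable coordinates. -/
theorem exists_vertical {k : ℕ} {d : Pt (k + 1)} (hd : d ≠ 0) :
    ∃ (T : (Pt k × ℝ) ≃ₗ[ℝ] Pt (k + 1)) (c : ℝ), 0 < c ∧ T (0, 1) = d ∧
      ∀ A : Set (Pt k × ℝ), (volume (T '' A)).toReal = c * (volume A).toReal := by
  classical
  obtain ⟨j, hj⟩ := Function.ne_iff.1 hd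
  simp only [Pi.zero_apply] at hj
  set e : Fin (k + 1) ≃ Fin (k + 1) := Equiv.swap j (Fin.last k) with he
  set L : Pt (k + 1) →ₗ[ℝ] Pt (k + 1) :=
    { toFun := fun z i => (if e i = Fin.last k then 0 else z (e i)) + z (Fin.last k) * d i
      map_add' := fun a b => by
        funext i; simp only [Pi.add_apply]; split_ifs <;> ring
      map_smul' := fun c a => by
        funext i; simp only [Pi.smul_apply, smul_eq_mul, RingHom.id_apply]; split_ifs <;> ring }
  have hinj : Injective L := by
    refine (injective_iff_map_eq_zero L).2 fun z hz => ?_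
    have h : ∀ i, (if e i = Fin.last k then 0 else z (e i)) + z (Fin.last k) * d i = 0 :=
      fun i => congrFun hz i
    have hl : z (Fin.last k) = 0 := by
      have := h j
      rw [if_pos (by simp [he])] at this
      simpa [hj] using this
    funext i
    by_cases hi : i = Fin.last k
    · rw [hi]; exact hl
    · have := h (e i)
      rw [show e (e i) = i by simp [he], if_neg hi, hl] at this
      simpa using this
  set S : Pt (k + 1) ≃ₗ[ℝ] Pt (k + 1) := LinearEquiv.ofInjectiveEndo L hinj
  obtain ⟨hc, hS⟩ := exists_factor S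
  refine ⟨(snocLin k).trans S, _, hc, ?_, fun A => ?_⟩
  · funext i
    show L (snocLin k (0, 1)) i = d i
    simp only [L, LinearMap.coe_mk, AddHom.coe_mk, snocLin_apply]
    by_cases hi : e i = Fin.last k
    · simp [hi]
    · obtain ⟨i', hi'⟩ := Fin.exists_castSucc_eq.2 hi
      rw [if_neg hi, ← hi']
      simp
  · rw [show ((snocLin k).trans S : Pt k × ℝ → Pt (k + 1)) '' A = S '' (snocLin k '' A) by
      rw [← image_comp]; rfl, hS, volume_image_snocLin]

/-- A compact convex nonempty subset of the line is an interval. -/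
theorem eq_interval {s : Set ℝ} (hc : IsCompact s) (hv : Convex ℝ s) (hne : s.Nonempty) :
    s = Icc (sInf s) (sSup s) :=
  eq_Icc_of_connected_compact ⟨hne, hv.isPreconnected⟩ hc

/-- Fibre of a set in `ℝ^k × ℝ`. -/
def fib {k : ℕ} (A : Set (Pt k × ℝ)) (y : Pt k) : Set ℝ := Prod.mk y ⁻¹' A

theorem isCompact_fib {k : ℕ} {A : Set (Pt k × ℝ)} (hA : IsCompact A) (y : Pt k) :
    IsCompact (fib A y) := by
  refine (hA.image continuous_snd).of_isClosed_subset
    (hA.isClosed.preimage (Continuous.prodMk_right y)) ?_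
  exact fun t ht => ⟨(y, t), ht, rfl⟩

theorem convex_fib {k : ℕ} {A : Set (Pt k × ℝ)} (hA : Convex ℝ A) (y : Pt k) :
    Convex ℝ (fib A y) := by
  intro a ha b hb u v hu hv huv
  have h := hA ha hb hu hv huv
  show (y, u • a + v • b) ∈ A
  rwa [Prod.smul_mk, Prod.smul_mk, Prod.mk_add_mk, ← add_smul, huv, one_smul] at h

theorem volume_eq_lintegral_fib {k : ℕ} {A : Set (Pt k × ℝ)} (hA : MeasurableSet A) :
    volume A = ∫⁻ y, volume (fib A y) := by
  rw [Measure.volume_eq_prod, Measure.prod_apply hA]
  rfl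

theorem le_volume_fib {k : ℕ} {A : Set (Pt k × ℝ)} (hA : Convex ℝ A) {y : Pt k} {a b : ℝ}
    (ha : (y, a) ∈ A) (hb : (y, b) ∈ A) : ENNReal.ofReal (b - a) ≤ volume (fib A y) := by
  rw [← Real.volume_Icc]
  rcases le_or_gt a b with h | h
  · refine measure_mono ?_
    rw [← segment_eq_Icc h]
    exact (convex_fib hA y).segment_subset ha hb
  · simp [Icc_eq_empty (not_le.2 h)]

end Vale.Agent.P237
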