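import Vale.Agent.P237.Sweep

/-!
# P237: cones and the inequality for two pyramids over one base
-/

namespace Vale.Agent.P237

open MeasureTheory Set Function
open scoped ENNReal Pointwise

theorem hull_insert_eq {E : Type*} [AddCommGroup E] [Module ℝ E] {S : Set E} (hS : Convex ℝ S)
    (hne : S.Nonempty) (q : E) : convexHull ℝ (insert q S)
      = (fun p : ℝ × E => p.1 • q + (1 - p.1) • p.2) '' (Icc 0 1 ×ˢ S) := by
  rw [convexHull_insert hne, hS.convexHull_eq]
  ext z
  simp only [mem_convexJoin, mem_singleton_iff, exists_eq_left]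
  constructor
  · rintro ⟨x, hx, a, b, ha, hb, hab, rfl⟩
    exact ⟨(a, x), ⟨⟨ha, by linarith⟩, hx⟩, by rw [show b = 1 - a by linarith]⟩
  · rintro ⟨⟨l, x⟩, ⟨hl, hx⟩, rfl⟩
    exact ⟨x, hx, l, 1 - l, hl.1, by linarith [hl.2], by ring, rfl⟩

theorem isCompact_hull_insert {E : Type*} [NormedAddCommGroup E] [NormedSpace ℝ E] {S : Set E}
    (hS : Convex ℝ S) (hc : IsCompact S) (hne : S.Nonempty) (q : E) :
    IsCompact (convexHull ℝ (insert q S)) := by
  rw [hull_insert_eq hS hne]
  exact (isCompact_Icc.prod hc).image (by fun_prop)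

variable {k : ℕ}

/-- The horizontal slice of a set. -/
def slice (A : Set (Pt k × ℝ)) (t : ℝ) : Set (Pt k) := (fun x => (x, t)) ⁻¹' A

theorem volume_eq_lintegral_slice {A : Set (Pt k × ℝ)} (hA : MeasurableSet A) :
    volume A = ∫⁻ t, volume (slice A t) := by
  rw [Measure.volume_eq_prod, Measure.prod_apply_symm hA]
  rfl

theorem slice_le_volume {A : Set (Pt k × ℝ)} (hA : MeasurableSet A) {g : ℝ → ℝ} {a b : ℝ}
    (hab : a ≤ b) (hg : Continuous g) (h0 : ∀ t ∈ Ioc a b, 0 ≤ g t)
    (h : ∀ t ∈ Ioo a b, ENNReal.ofReal (g t) ≤ volume (slice A t)) :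
    ENNReal.ofReal (∫ t in a..b, g t) ≤ volume A := by
  rw [volume_eq_lintegral_slice hA, intervalIntegral.integral_of_le hab,
    ofReal_integral_eq_lintegral_ofReal hg.integrableOn_Ioc
      ((ae_restrict_iff' measurableSet_Ioc).2 (Filter.Eventually.of_forall h0))]
  rw [← setLIntegral_congr Ioo_ae_eq_Ioc]
  exact (setLIntegral_mono' measurableSet_Ioo h).trans (setLIntegral_le_lintegral _ _)

/-- The cone with base `L` at height zero and apex `(a, H)`. -/
def coneSet (L : Set (Pt k)) (a : Pt k) (H : ℝ) : Set (Pt k × ℝ) :=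
  convexHull ℝ (insert (a, H) (L ×ˢ {0}))

theorem coneSet_props {L : Set (Pt k)} (hL : IsCompact L) (hLc : Convex ℝ L) (hne : L.Nonempty)
    (a : Pt k) (H : ℝ) : IsCompact (coneSet L a H) ∧ Convex ℝ (coneSet L a H) ∧
      coneSet L a H = (fun p : ℝ × (Pt k × ℝ) => p.1 • (a, H) + (1 - p.1) • p.2) ''
        (Icc 0 1 ×ˢ (L ×ˢ {0})) :=
  ⟨isCompact_hull_insert (hLc.prod (convex_singleton 0)) (hL.prod isCompact_singleton)
    (hne.prod (singleton_nonempty 0)) _, convex_convexHull ℝ _,
    hull_insert_eq (hLc.prod (convex_singleton 0)) (hne.prod (singleton_nonempty 0)) _⟩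

theorem coneSet_slice {L : Set (Pt k)} (hL : IsCompact L) (hLc : Convex ℝ L) (hne : L.Nonempty)
    (a : Pt k) {H : ℝ} (hH : 0 < H) (t : ℝ) : slice (coneSet L a H) t
      = if t ∈ Icc 0 H then (fun x => x + (t / H) • a) '' ((1 - t / H) • L) else ∅ := by
  rw [(coneSet_props hL hLc hne a H).2.2]
  ext x
  simp only [slice, mem_preimage, mem_image]
  constructor
  · rintro ⟨⟨l, z, r⟩, ⟨hl, hz, hr⟩, he⟩
    rw [mem_singleton_iff] at hr
    subst hr
    simp only [Prod.smul_mk, smul_eq_mul, mul_zero, Prod.mk_add_mk, add_zero, Prod.mk.injEq] at he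
    obtain ⟨rfl, rfl⟩ := he
    have hl' : l * H / H = l := by field_simp
    rw [if_pos ⟨mul_nonneg hl.1 hH.le, mul_le_of_le_one_left hH.le hl.2⟩, hl']
    exact ⟨(1 - l) • z, smul_mem_smul_set hz, add_comm _ _⟩
  · split_ifs with ht
    · rintro ⟨_, ⟨z, hz, rfl⟩, rfl⟩
      refine ⟨(t / H, z, 0), ⟨⟨div_nonneg ht.1 hH.le, (div_le_one hH).2 ht.2⟩, hz, rfl⟩, ?_⟩
      simp [div_mul_cancel₀ _ hH.ne', add_comm]
    · exact fun h => h.elim

theorem volume_smul_set (L : Set (Pt k)) {r : ℝ} (hr : 0 ≤ r) :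
    volume (r • L) = ENNReal.ofReal (r ^ k) * volume L := by
  rw [Measure.addHaar_smul, abs_of_nonneg (pow_nonneg (by simpa using hr) _)]
  simp [abs_of_nonneg hr]

theorem integral_one_sub_div_pow (n : ℕ) {H : ℝ} (hH : 0 < H) :
    ∫ t in (0 : ℝ)..H, (1 - t / H) ^ n = H / ((n : ℝ) + 1) := by
  rw [intervalIntegral.integral_comp_sub_div (fun x : ℝ => x ^ n) hH.ne' 1]
  simp [integral_pow, hH.ne', div_eq_mul_inv]

theorem volume_coneSet {L : Set (Pt k)} (hL : IsCompact L) (hLc : Convex ℝ L) (hne : L.Nonempty)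
    (a : Pt k) {H : ℝ} (hH : 0 < H) :
    (volume (coneSet L a H)).toReal = H / ((k : ℝ) + 1) * (volume L).toReal := by
  have hm := (coneSet_props hL hLc hne a H).1.measurableSet
  rw [volume_eq_lintegral_slice hm]
  have e : ∀ t, volume (slice (coneSet L a H) t)
      = (Icc 0 H).indicator (fun t => ENNReal.ofReal ((1 - t / H) ^ k) * volume L) t := by
    intro t
    rw [coneSet_slice hL hLc hne a hH, indicator_apply]
    split_ifs with ht
    · rw [volume_translate, volume_smul_set]
      rw [sub_nonneg, div_le_one hH]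
      exact ht.2
    · simp
  rw [lintegral_congr e, lintegral_indicator measurableSet_Icc,
    lintegral_mul_const _ (by fun_prop), ENNReal.toReal_mul,
    ← ofReal_integral_eq_lintegral_ofReal
      (Continuous.integrableOn_Icc (by fun_prop)) ((ae_restrict_iff' measurableSet_Icc).2
      (Filter.Eventually.of_forall fun t ht => pow_nonneg (by
        rw [sub_nonneg, div_le_one hH]; exact ht.2) _)),
    integral_Icc_eq_integral_Ioc, ← intervalIntegral.integral_of_le hH.le,
    integral_one_sub_div_pow k hH, ENNReal.toReal_ofReal (by positivity)]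

/-- Volume of the hull of a base and one point. -/
noncomputable def hullVol (L : Set (Pt k)) (q : Pt k) : ℝ :=
  (volume (convexHull ℝ (insert q L))).toReal

theorem le_hullVol {L : Set (Pt k)} (hL : IsCompact L) (hLc : Convex ℝ L) (hne : L.Nonempty)
    (q : Pt k) : (volume L).toReal ≤ hullVol L q :=
  ENNReal.toReal_mono (isCompact_hull_insert hLc hL hne q).measure_lt_top.ne
    (measure_mono ((subset_insert q L).trans (subset_convexHull ℝ _)))

theorem two_pyramids_vertical {L : Set (Pt k × ℝ)} (hL : IsCompact L) (hLc : Convex ℝ L)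
    (hne : L.Nonempty) (yq : Pt k) (c : ℝ) :
    (volume L).toReal + (volume (Prod.fst '' L)).toReal / ((k : ℝ) + 1)
      ≤ (volume (convexHull ℝ (insert (yq, c) L))).toReal
        + (volume (convexHull ℝ (insert (yq, c + 1) L))).toReal := by
  classical
  set F₁ := convexHull ℝ (insert (yq, c) L)
  set F₂ := convexHull ℝ (insert (yq, c + 1) L)
  have hc₁ : IsCompact F₁ := isCompact_hull_insert hLc hL hne _
  have hc₂ : IsCompact F₂ := isCompact_hull_insert hLc hL hne _
  set P := Prod.fst '' L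
  have hP : IsCompact P := hL.image continuous_fst
  have hPc : Convex ℝ P := hLc.linear_image (LinearMap.fst ℝ (Pt k) ℝ)
  have hPne : P.Nonempty := hne.image _
  obtain ⟨hYc, -, hYeq⟩ := coneSet_props hP hPc hPne yq 1
  set Y := coneSet P yq 1
  have hY : ∀ y l, (y, l) ∈ Y ↔ l ∈ Icc (0 : ℝ) 1 ∧ ∃ x z, (x, z) ∈ L ∧ y = l • yq + (1 - l) • x := by
    intro y l
    rw [hYeq]
    constructor
    · rintro ⟨⟨m, x, r⟩, ⟨hm, ⟨⟨x', z⟩, hxz, rfl⟩, hr⟩, he⟩
      rw [mem_singleton_iff] at hr
      subst hr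
      simp only [Prod.smul_mk, smul_eq_mul, mul_one, mul_zero, Prod.mk_add_mk, add_zero,
        Prod.mk.injEq] at he
      obtain ⟨rfl, rfl⟩ := he
      exact ⟨hm, x', z, hxz, rfl⟩
    · rintro ⟨hl, x, z, hxz, rfl⟩
      exact ⟨(l, x, 0), ⟨hl, ⟨(x, z), hxz, rfl⟩, rfl⟩, by simp⟩
  have hmem : ∀ (d l : ℝ) x z, l ∈ Icc (0 : ℝ) 1 → (x, z) ∈ L →
      (l • yq + (1 - l) • x, l * d + (1 - l) * z) ∈ convexHull ℝ (insert (yq, d) L) := by
    intro d l x z hl hxz
    rw [hull_insert_eq hLc hne]
    exact ⟨(l, x, z), ⟨hl, hxz⟩, by simp⟩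
  have key : volume L + volume Y ≤ volume F₁ + volume F₂ := by
    rw [volume_eq_lintegral_fib hL.measurableSet, volume_eq_lintegral_fib hYc.measurableSet,
      volume_eq_lintegral_fib hc₁.measurableSet, volume_eq_lintegral_fib hc₂.measurableSet,
      ← lintegral_add_left (show Measurable fun y => volume (fib L y) from
        measurable_measure_prodMk_left hL.measurableSet),
      ← lintegral_add_left (show Measurable fun y => volume (fib F₁ y) from
        measurable_measure_prodMk_left hc₁.measurableSet)]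
    refine lintegral_mono fun y => ?_
    rcases (fib Y y).eq_empty_or_nonempty with hΛ | hΛ
    · have hLy : fib L y = ∅ := eq_empty_of_forall_notMem fun z hz => by
        have : (0 : ℝ) ∈ fib Y y := (hY y 0).2 ⟨by simp, y, z, hz, by simp⟩
        rw [hΛ] at this
        exact this
      simp [hΛ, hLy]
    have hΛc := isCompact_fib hYc y
    set l := sInf (fib Y y)
    set h := sSup (fib Y y)
    obtain ⟨hl, xl, zl, hzl, hyl⟩ := (hY y l).1 (hΛc.sInf_mem hΛ)
    obtain ⟨hh, xh, zh, hzh, hyh⟩ := (hY y h).1 (hΛc.sSup_mem hΛ)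
    have hYle : volume (fib Y y) ≤ ENNReal.ofReal (h - l) := by
      rw [← Real.volume_Icc]
      exact measure_mono fun t ht => ⟨csInf_le hΛc.bddBelow ht, le_csSup hΛc.bddAbove ht⟩
    have a1 : (y, h * c + (1 - h) * zh) ∈ F₁ := hyh ▸ hmem c h xh zh hh hzh
    have a2 : (y, h * (c + 1) + (1 - h) * zh) ∈ F₂ := hyh ▸ hmem (c + 1) h xh zh hh hzh
    have b1 : (y, l * c + (1 - l) * zl) ∈ F₁ := hyl ▸ hmem c l xl zl hl hzl
    have b2 : (y, l * (c + 1) + (1 - l) * zl) ∈ F₂ := hyl ▸ hmem (c + 1) l xl zl hl hzl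
    have hv₁ : Convex ℝ F₁ := convex_convexHull ℝ _
    have hv₂ : Convex ℝ F₂ := convex_convexHull ℝ _
    rcases (fib L y).eq_empty_or_nonempty with hLy | hLy
    · rw [hLy, measure_empty, zero_add]
      refine hYle.trans (le_trans ?_ (add_le_add (le_volume_fib hv₁ a1 b1) (le_volume_fib hv₂ b2 a2)))
      refine le_trans (le_of_eq ?_) ENNReal.ofReal_add_le
      congr 1
      ring
    · have hLyc := isCompact_fib hL y
      have hI := eq_interval hLyc (convex_fib hLc y) hLy
      set p := sInf (fib L y)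
      set q := sSup (fib L y)
      have hp : (y, p) ∈ L := hLyc.sInf_mem hLy
      have hq : (y, q) ∈ L := hLyc.sSup_mem hLy
      have hl0 : l = 0 := le_antisymm
        (csInf_le hΛc.bddBelow ((hY y 0).2 ⟨by simp, y, p, hp, by simp⟩)) hl.1
      have hsub : ∀ d, L ⊆ convexHull ℝ (insert (yq, d) L) :=
        fun d => (subset_insert _ L).trans (subset_convexHull ℝ _)
      have hpq : p ≤ q := csInf_le hLyc.bddBelow hq
      rw [hI, Real.volume_Icc]
      refine (add_le_add le_rfl hYle).trans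
        (le_trans ?_ (add_le_add (le_volume_fib hv₁ a1 (hsub c hq))
          (le_volume_fib hv₂ (hsub (c + 1) hp) a2)))
      rw [← ENNReal.ofReal_add (by linarith) (by linarith [hh.1])]
      refine le_trans (le_of_eq ?_) ENNReal.ofReal_add_le
      congr 1
      rw [hl0]
      ring
  have hYv := volume_coneSet hP hPc hPne yq one_pos
  have := ENNReal.toReal_mono (ENNReal.add_ne_top.2 ⟨hc₁.measure_lt_top.ne, hc₂.measure_lt_top.ne⟩) key
  rw [ENNReal.toReal_add hL.measure_lt_top.ne hYc.measure_lt_top.ne,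
    ENNReal.toReal_add hc₁.measure_lt_top.ne hc₂.measure_lt_top.ne] at this
  rw [show (volume Y).toReal = 1 / ((k : ℝ) + 1) * (volume P).toReal from hYv] at this
  calc (volume L).toReal + (volume P).toReal / ((k : ℝ) + 1)
      = (volume L).toReal + 1 / ((k : ℝ) + 1) * (volume P).toReal := by ring
    _ ≤ _ := this

/-- Two pyramids over one base against the base and a sweep of it. -/
theorem two_pyramids {L : Set (Pt (k + 1))} (hL : IsCompact L) (hLc : Convex ℝ L)
    (hne : L.Nonempty) (q₁ q₂ : Pt (k + 1)) :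
    (volume L).toReal + gain L (q₂ - q₁) / ((k : ℝ) + 1) ≤ hullVol L q₁ + hullVol L q₂ := by
  by_cases hd : q₂ - q₁ = 0
  · rw [hd, gain_zero, zero_div, add_zero]
    linarith [le_hullVol hL hLc hne q₁, le_hullVol hL hLc hne q₂,
      (ENNReal.toReal_nonneg : 0 ≤ (volume L).toReal)]
  obtain ⟨T, c, hc, hT1, hT⟩ := exists_vertical hd
  set A := T.symm '' L with hA
  have hAk : IsCompact A := hL.image T.symm.toLinearMap.continuous_of_finiteDimensional
  have hAc : Convex ℝ A := hLc.linear_image T.symm.toLinearMap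
  have hTA : T '' A = L := by simp [hA, image_image]
  have hhull : ∀ p, hullVol L (T p) = c * (volume (convexHull ℝ (insert p A))).toReal := by
    intro p
    rw [← hT, hullVol, show (T : Pt k × ℝ → Pt (k + 1)) = T.toLinearMap from rfl,
      LinearMap.image_convexHull, image_insert_eq]
    simp only [LinearEquiv.coe_coe, hTA]
  have h := two_pyramids_vertical hAk hAc (hne.image _) (T.symm q₁).1 (T.symm q₁).2
  have hvL : (volume L).toReal = c * (volume A).toReal := by rw [← hT, hTA]
  have hg : gain L (q₂ - q₁) = c * (volume (Prod.fst '' A)).toReal := by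
    rw [← hT1, ← hTA, gain_image T hT, gain_vertical hAk hAc zero_le_one, one_mul]
  have e₁ : hullVol L q₁ = c * (volume (convexHull ℝ (insert ((T.symm q₁).1, (T.symm q₁).2) A))).toReal := by
    rw [← hhull]; simp
  have e₂ : hullVol L q₂
      = c * (volume (convexHull ℝ (insert ((T.symm q₁).1, (T.symm q₁).2 + 1) A))).toReal := by
    rw [← hhull, show ((T.symm q₁).1, (T.symm q₁).2 + 1) = T.symm q₁ + ((0 : Pt k), (1 : ℝ)) by
      ext <;> simp, map_add, hT1, T.apply_symm_apply, add_sub_cancel]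
  rw [hvL, hg, e₁, e₂, mul_div_assoc, ← mul_add, ← mul_add]
  exact mul_le_mul_of_nonneg_left h hc.le

end Vale.Agent.P237
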