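import Vale.Agent.P237.Pyramid

/-!
# P237: cone and cylinder steps
-/

namespace Vale.Agent.P237

open MeasureTheory Set Function
open scoped ENNReal Pointwise

variable {k : ℕ}

theorem dot_snoc (y u : Pt k) (s t : ℝ) :
    snocLin k (y, s) ⬝ᵥ snocLin k (u, t) = y ⬝ᵥ u + s * t := by
  simp [dotProduct, Fin.sum_univ_castSucc, snocLin_apply]

theorem gain_snoc (C : Set (Pt k × ℝ)) (v : Pt k × ℝ) :
    gain (snocLin k '' C) (snocLin k v) = gain C v := by
  rw [gain_image (c := 1) (snocLin k) (fun A => by rw [volume_image_snocLin, one_mul]), one_mul]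

theorem gain_neg' (C : Set (Pt k × ℝ)) (v : Pt k × ℝ) : gain C (-v) = gain C v := by
  rw [← gain_snoc C (-v), map_neg, gain_neg, gain_snoc]

/-- A shear keeping volume and sending the vertical vector to `(w, 1)`. -/
def shearUp (w : Pt k) : (Pt k × ℝ) ≃ₗ[ℝ] (Pt k × ℝ) where
  toFun p := (p.1 + p.2 • w, p.2)
  invFun p := (p.1 - p.2 • w, p.2)
  map_add' p q := by
    ext i
    · simp only [Prod.fst_add, Prod.snd_add, add_smul, Pi.add_apply]; ring
    · simp
  map_smul' c p := by
    ext i
    · simp [smul_smul, mul_assoc]; try ring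
    · simp
  left_inv p := by simp
  right_inv p := by simp

theorem volume_shearUp (w : Pt k) (A : Set (Pt k × ℝ)) :
    (volume (shearUp w '' A)).toReal = 1 * (volume A).toReal := by
  have hf : MeasurePreserving (fun p : ℝ × Pt k => (p.1, p.2 + p.1 • w)) volume volume := by
    rw [Measure.volume_eq_prod]
    exact MeasurePreserving.skew_product (g := fun t (x : Pt k) => x + t • w)
      (MeasurePreserving.id volume) (by fun_prop)
      (Filter.Eventually.of_forall fun t => (measurePreserving_add_right volume (t • w)).map_eq)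
  have hs : MeasurePreserving (Prod.swap : Pt k × ℝ → ℝ × Pt k) volume volume :=
    Measure.measurePreserving_swap
  have hs' : MeasurePreserving (Prod.swap : ℝ × Pt k → Pt k × ℝ) volume volume :=
    Measure.measurePreserving_swap
  have hm : MeasurePreserving (shearUp w) volume volume := by
    have e : (shearUp w : Pt k × ℝ → Pt k × ℝ)
        = Prod.swap ∘ (fun p : ℝ × Pt k => (p.1, p.2 + p.1 • w)) ∘ Prod.swap := rfl
    rw [e]
    exact hs'.comp (hf.comp hs)
  have he : MeasurableEmbedding (shearUp w) :=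
    ((shearUp w).toContinuousLinearEquiv.toHomeomorph).measurableEmbedding
  rw [one_mul]
  congr 1
  conv_lhs => rw [← hm.map_eq, he.map_apply]
  rw [(shearUp w).injective.preimage_image]

/-- Sweeping along a direction with positive height. -/
theorem gain_upward {C : Set (Pt k × ℝ)} (hC : IsCompact C) (hCc : Convex ℝ C) (w : Pt k) {t : ℝ}
    (ht : 0 ≤ t) : gain C (t • w, t)
      = t * (volume ((fun p : Pt k × ℝ => p.1 - p.2 • w) '' C)).toReal := by
  set A := (shearUp w).symm '' C
  have hA : IsCompact A := hC.image (shearUp w).symm.toLinearMap.continuous_of_finiteDimensional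
  have hAc : Convex ℝ A := hCc.linear_image (shearUp w).symm.toLinearMap
  have h := gain_image (shearUp w) (volume_shearUp w) A ((0 : Pt k), t)
  rw [show shearUp w '' A = C by simp [A, image_image], gain_vertical hA hAc ht, one_mul] at h
  rw [show (t • w, t) = shearUp w ((0 : Pt k), t) by simp [shearUp], h]
  congr 2
  simp only [A, image_image]
  rfl

/-- The prism over `L`. -/
def cylSet (L : Set (Pt k)) (H : ℝ) : Set (Pt k × ℝ) := L ×ˢ Icc 0 H

theorem volume_cylSet (L : Set (Pt k)) {H : ℝ} (hH : 0 ≤ H) :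
    (volume (cylSet L H)).toReal = H * (volume L).toReal := by
  rw [cylSet, Measure.volume_eq_prod, Measure.prod_prod, ENNReal.toReal_mul, Real.volume_Icc,
    sub_zero, ENNReal.toReal_ofReal hH]
  ring

theorem gain_cyl_ge {L : Set (Pt k)} (hL : IsCompact L) (hLc : Convex ℝ L) {H : ℝ} (hH : 0 < H)
    (u : Pt k) (t : ℝ) :
    |t| * (volume L).toReal + H * gain L u ≤ gain (cylSet L H) (u, t) := by
  have hC : IsCompact (cylSet L H) := hL.prod isCompact_Icc
  have hCc : Convex ℝ (cylSet L H) := hLc.prod (convex_Icc 0 H)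
  suffices key : ∀ (u : Pt k) (t : ℝ), 0 ≤ t →
      t * (volume L).toReal + H * gain L u ≤ gain (cylSet L H) (u, t) by
    rcases le_total 0 t with h | h
    · rw [abs_of_nonneg h]; exact key u t h
    · have := key (-u) (-t) (by linarith)
      rw [gain_neg] at this
      rw [show gain (cylSet L H) (u, t) = gain (cylSet L H) (-u, -t) from
        ((congrArg (gain _) (by simp)).trans (gain_neg' _ _)).symm, abs_of_nonpos h]
      exact this
  intro u t ht
  rcases ht.eq_or_lt with rfl | ht
  · have hsub : swept L u ×ˢ Icc 0 H ⊆ swept (cylSet L H) (u, 0) := by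
      rintro ⟨z, r⟩ ⟨⟨⟨x, τ⟩, ⟨hx, hτ⟩, rfl⟩, hr⟩
      exact ⟨((x, r), τ), ⟨⟨hx, hr⟩, hτ⟩, by simp⟩
    have h := ENNReal.toReal_mono (isCompact_swept hC _).measure_lt_top.ne
      (measure_mono hsub (μ := (volume : Measure (Pt k × ℝ))))
    have hv : (volume (swept L u ×ˢ Icc 0 H)).toReal = H * (volume (swept L u)).toReal :=
      volume_cylSet (swept L u) hH.le
    rw [hv] at h
    simp only [gain, volume_cylSet L hH.le, zero_mul, zero_add]
    linarith
  · have hw : (t • (t⁻¹ • u), t) = (u, t) := by simp [smul_smul, ht.ne']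
    rw [← hw, gain_upward hC hCc _ ht.le]
    have hsub : swept L (-((H / t) • u)) ⊆
        (fun p : Pt k × ℝ => p.1 - p.2 • (t⁻¹ • u)) '' cylSet L H := by
      rintro _ ⟨⟨x, τ⟩, ⟨hx, hτ⟩, rfl⟩
      refine ⟨(x, τ * H), ⟨hx, mul_nonneg hτ.1 hH.le, mul_le_of_le_one_left hH.le hτ.2⟩, ?_⟩
      simp [smul_smul, div_eq_mul_inv, sub_eq_add_neg, mul_assoc]
    have hfin : volume ((fun p : Pt k × ℝ => p.1 - p.2 • (t⁻¹ • u)) '' cylSet L H) ≠ ⊤ :=
      (hC.image (by fun_prop)).measure_lt_top.ne
    have h := ENNReal.toReal_mono hfin (measure_mono hsub)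
    have hg : gain L (-((H / t) • u)) = H / t * gain L u := by
      rw [gain_neg, gain_smul hL hLc u (by positivity)]
    rw [gain] at hg
    calc t * (volume L).toReal + H * gain L u
        = t * (volume (swept L (-((H / t) • u)))).toReal := by
          rw [show (volume (swept L (-((H / t) • u)))).toReal
            = (volume L).toReal + H / t * gain L u by linarith]
          field_simp
      _ ≤ _ := mul_le_mul_of_nonneg_left h ht.le

/-- The set playing the role of the scaled projection body of the base. -/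
theorem volume_scaled_gainBody {L : Set (Pt k)} {r : ℝ} (hr : 0 < r) :
    (volume {y : Pt k | ∀ u, y ⬝ᵥ u ≤ r * gain L u}).toReal
      = r ^ k * (volume (gainBody L)).toReal := by
  have e : {y : Pt k | ∀ u, y ⬝ᵥ u ≤ r * gain L u} = r • gainBody L := by
    ext y
    rw [mem_smul_set_iff_inv_smul_mem₀ hr.ne']
    refine forall_congr' fun u => ?_
    rw [smul_dotProduct, smul_eq_mul, inv_mul_le_iff₀ hr]
  rw [e, volume_smul_set _ hr.le, ENNReal.toReal_mul, ENNReal.toReal_ofReal (by positivity)]

theorem cylinder_step {L : Set (Pt k)} (hL : IsCompact L) (hLc : Convex ℝ L) {H : ℝ} (hH : 0 < H) :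
    2 * (volume L).toReal * (H ^ k * (volume (gainBody L)).toReal)
      ≤ (volume (gainBody (snocLin k '' cylSet L H))).toReal := by
  set G := {y : Pt k | ∀ u, y ⬝ᵥ u ≤ H * gain L u}
  set B := (volume L).toReal
  have hB : 0 ≤ B := ENNReal.toReal_nonneg
  have hsub : snocLin k '' (G ×ˢ Icc (-B) B) ⊆ gainBody (snocLin k '' cylSet L H) := by
    rintro _ ⟨⟨y, s⟩, ⟨hy, hs⟩, rfl⟩ v
    obtain ⟨⟨u, t⟩, rfl⟩ := (snocLin k).surjective v
    rw [dot_snoc, gain_snoc]
    have h1 : s * t ≤ |t| * B := by
      calc s * t ≤ |s * t| := le_abs_self _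
        _ = |t| * |s| := by rw [abs_mul]; ring
        _ ≤ |t| * B := mul_le_mul_of_nonneg_left (abs_le.2 hs) (abs_nonneg t)
    linarith [gain_cyl_ge hL hLc hH u t, hy u]
  have h := ENNReal.toReal_mono (gainBody_finite _) (measure_mono hsub)
  rw [volume_image_snocLin, Measure.volume_eq_prod, Measure.prod_prod, ENNReal.toReal_mul,
    volume_scaled_gainBody hH, Real.volume_Icc, ENNReal.toReal_ofReal (by linarith)] at h
  linarith

theorem gain_cone_flat {L : Set (Pt (k + 1))} (hL : IsCompact L) (hLc : Convex ℝ L)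
    (hne : L.Nonempty) (a : Pt (k + 1)) {H : ℝ} (hH : 0 < H) (u : Pt (k + 1)) :
    H / ((k : ℝ) + 1) * gain L u ≤ gain (coneSet L a H) (u, 0) := by
  obtain ⟨hC, -, -⟩ := coneSet_props hL hLc hne a H
  have hS : IsCompact (swept (coneSet L a H) (u, 0)) := isCompact_swept hC _
  set B := (volume L).toReal
  set g := gain L u
  have hB : 0 ≤ B := ENNReal.toReal_nonneg
  have hg : 0 ≤ g := gain_nonneg hL u
  have hfun : ∀ t ∈ Ioc 0 H, 0 ≤ (1 - t / H) ^ (k + 1) * B + (1 - t / H) ^ k * g := fun t ht => by
    have : 0 ≤ 1 - t / H := by rw [sub_nonneg, div_le_one hH]; exact ht.2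
    positivity
  have h := slice_le_volume hS.measurableSet hH.le
    (g := fun t => (1 - t / H) ^ (k + 1) * B + (1 - t / H) ^ k * g) (by fun_prop) hfun
    fun t ht => by
    set r := 1 - t / H with hr
    have hr0 : 0 < r := by rw [hr, sub_pos, div_lt_one hH]; exact ht.2
    have hmem : (fun x => x + (t / H) • a) '' (r • swept L (r⁻¹ • u))
        ⊆ slice (swept (coneSet L a H) (u, 0)) t := by
      rintro _ ⟨_, ⟨_, ⟨⟨x, τ⟩, ⟨hx, hτ⟩, rfl⟩, rfl⟩, rfl⟩
      refine ⟨((r • x + (t / H) • a, t), τ), ⟨?_, hτ⟩, ?_⟩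
      · show r • x + (t / H) • a ∈ slice (coneSet L a H) t
        rw [coneSet_slice hL hLc hne a hH, if_pos ⟨ht.1.le, ht.2.le⟩, ← hr]
        exact ⟨r • x, smul_mem_smul_set hx, rfl⟩
      · simp only [smul_add, smul_smul, mul_comm τ, ← mul_assoc, mul_inv_cancel₀ hr0.ne',
          Prod.smul_mk, smul_zero, Prod.mk_add_mk, add_zero, one_mul]
        simp only [add_assoc, add_comm ((t / H) • a)]
    refine le_trans ?_ (measure_mono hmem)
    rw [volume_translate, volume_smul_set _ hr0.le]
    have hgs : (volume (swept L (r⁻¹ • u))).toReal = B + r⁻¹ * g := by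
      have := gain_smul hL hLc u (inv_nonneg.2 hr0.le)
      rw [gain] at this
      linarith
    rw [← ENNReal.ofReal_toReal (a := volume (swept L _)) (isCompact_swept hL _).measure_lt_top.ne,
      ← ENNReal.ofReal_mul (by positivity), hgs]
    refine ENNReal.ofReal_le_ofReal (le_of_eq ?_)
    field_simp
    ring
  have hi : (∫ t in (0 : ℝ)..H, ((1 - t / H) ^ (k + 1) * B + (1 - t / H) ^ k * g))
      = H / ((k : ℝ) + 2) * B + H / ((k : ℝ) + 1) * g := by
    rw [intervalIntegral.integral_add (Continuous.intervalIntegrable (by fun_prop) _ _)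
      (Continuous.intervalIntegrable (by fun_prop) _ _), intervalIntegral.integral_mul_const,
      intervalIntegral.integral_mul_const, integral_one_sub_div_pow _ hH,
      integral_one_sub_div_pow _ hH]
    push_cast
    ring
  rw [hi] at h
  have hv := volume_coneSet hL hLc hne a hH
  have h' := (ENNReal.ofReal_le_iff_le_toReal hS.measure_lt_top.ne).1 h
  rw [gain, hv]
  push_cast
  rw [show (k : ℝ) + 1 + 1 = (k : ℝ) + 2 by ring]
  linarith

end Vale.Agent.P237
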