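import Vale.Agent.P237.Coord

/-!
# P237: volume excess of a swept body
-/

namespace Vale.Agent.P237

open MeasureTheory Set Function
open scoped ENNReal

variable {E F : Type*} [AddCommGroup E] [Module ℝ E] [AddCommGroup F] [Module ℝ F]

/-- The body swept by `K` moving along the segment from `0` to `u`. -/
def swept (K : Set E) (u : E) : Set E := (fun p : E × ℝ => p.1 + p.2 • u) '' (K ×ˢ Icc 0 1)

/-- The volume gained by sweeping. -/
noncomputable def gain [MeasureSpace E] (K : Set E) (u : E) : ℝ :=
  (volume (swept K u)).toReal - (volume K).toReal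

theorem subset_swept (K : Set E) (u : E) : K ⊆ swept K u :=
  fun x hx => ⟨(x, 0), ⟨hx, by norm_num, by norm_num⟩, by simp⟩

theorem swept_image (T : E →ₗ[ℝ] F) (K : Set E) (u : E) : swept (T '' K) (T u) = T '' swept K u := by
  ext z
  constructor
  · rintro ⟨⟨x, t⟩, ⟨⟨w, hw, rfl⟩, ht⟩, rfl⟩
    exact ⟨w + t • u, ⟨(w, t), ⟨hw, ht⟩, rfl⟩, by simp⟩
  · rintro ⟨_, ⟨⟨w, t⟩, ⟨hw, ht⟩, rfl⟩, rfl⟩
    exact ⟨(T w, t), ⟨⟨w, hw, rfl⟩, ht⟩, by simp⟩

theorem swept_translate (v : E) (K : Set E) (u : E) :
    swept ((fun x => x + v) '' K) u = (fun x => x + v) '' swept K u := by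
  ext z
  constructor
  · rintro ⟨⟨x, t⟩, ⟨⟨w, hw, rfl⟩, ht⟩, rfl⟩
    exact ⟨w + t • u, ⟨(w, t), ⟨hw, ht⟩, rfl⟩, add_right_comm _ _ _⟩
  · rintro ⟨_, ⟨⟨w, t⟩, ⟨hw, ht⟩, rfl⟩, rfl⟩
    exact ⟨(w + v, t), ⟨⟨w, hw, rfl⟩, ht⟩, add_right_comm _ _ _⟩

theorem swept_neg (K : Set E) (u : E) : swept K (-u) = (fun x => x + -u) '' swept K u := by
  ext z
  constructor
  · rintro ⟨⟨x, t⟩, ⟨hx, ht⟩, rfl⟩
    refine ⟨x + (1 - t) • u, ⟨(x, 1 - t), ⟨hx, by linarith [ht.2], by linarith [ht.1]⟩, rfl⟩, ?_⟩
    simp only [sub_smul, one_smul, smul_neg]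
    abel
  · rintro ⟨_, ⟨⟨x, t⟩, ⟨hx, ht⟩, rfl⟩, rfl⟩
    refine ⟨(x, 1 - t), ⟨hx, by linarith [ht.2], by linarith [ht.1]⟩, ?_⟩
    simp only [sub_smul, one_smul, smul_neg]
    abel

variable {k : ℕ}

theorem isCompact_swept {E : Type*} [NormedAddCommGroup E] [NormedSpace ℝ E] {K : Set E}
    (hK : IsCompact K) (u : E) : IsCompact (swept K u) :=
  (hK.prod isCompact_Icc).image (by fun_prop)

theorem gain_nonneg {K : Set (Pt k)} (hK : IsCompact K) (u : Pt k) : 0 ≤ gain K u :=
  sub_nonneg.2 (ENNReal.toReal_mono (isCompact_swept hK u).measure_lt_top.ne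
    (measure_mono (subset_swept K u)))

theorem volume_translate (v : Pt k) (A : Set (Pt k)) :
    volume ((fun x => x + v) '' A) = volume A := by
  rw [image_add_right, measure_preimage_add_right]

theorem gain_zero (K : Set (Pt k)) : gain K 0 = 0 := by
  have h : swept K 0 = K := by
    ext z
    constructor
    · rintro ⟨⟨x, t⟩, ⟨hx, -⟩, rfl⟩
      simpa using hx
    · exact fun hz => subset_swept K 0 hz
  rw [gain, h, sub_self]

theorem gain_neg (K : Set (Pt k)) (u : Pt k) : gain K (-u) = gain K u := by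
  rw [gain, gain, swept_neg, volume_translate]

theorem gain_translate (v : Pt k) (K : Set (Pt k)) (u : Pt k) :
    gain ((fun x => x + v) '' K) u = gain K u := by
  rw [gain, gain, swept_translate, volume_translate, volume_translate]

theorem gain_image {E F : Type*} [AddCommGroup E] [Module ℝ E] [MeasureSpace E] [AddCommGroup F]
    [Module ℝ F] [MeasureSpace F] {c : ℝ} (T : E ≃ₗ[ℝ] F) (hT : ∀ A : Set E, (volume (T '' A)).toReal = c * (volume A).toReal)
    (K : Set E) (u : E) : gain (T '' K) (T u) = c * gain K u := by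
  rw [gain, gain, show (T : E → F) = (T : E →ₗ[ℝ] F) from rfl, swept_image]
  simp only [LinearEquiv.coe_coe]
  rw [hT, hT]
  ring

/-- Sweeping vertically by `t` adds `t` times the volume of the shadow. -/
theorem gain_vertical {A : Set (Pt k × ℝ)} (hA : IsCompact A) (hAc : Convex ℝ A) {t : ℝ}
    (ht : 0 ≤ t) : gain A (0, t) = t * (volume (Prod.fst '' A)).toReal := by
  have hS : IsCompact (swept A (0, t)) := isCompact_swept hA _
  have hP : IsCompact (Prod.fst '' A) := hA.image continuous_fst
  have key : volume (swept A (0, t)) = volume A + ENNReal.ofReal t * volume (Prod.fst '' A) := by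
    rw [volume_eq_lintegral_fib hS.measurableSet, volume_eq_lintegral_fib hA.measurableSet,
      ← setLIntegral_const, ← lintegral_indicator hP.measurableSet,
      ← lintegral_add_right _ (measurable_const.indicator hP.measurableSet)]
    refine lintegral_congr fun y => ?_
    by_cases hy : y ∈ Prod.fst '' A
    · rw [indicator_of_mem hy]
      obtain ⟨⟨y', s⟩, hs, rfl⟩ := hy
      have hne : (fib A y').Nonempty := ⟨s, hs⟩
      have hI := eq_interval (isCompact_fib hA y') (convex_fib hAc y') hne
      set a := sInf (fib A y')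
      set b := sSup (fib A y')
      have hab : a ≤ b := by
        have : s ∈ fib A y' := hs
        rw [hI] at this
        exact this.1.trans this.2
      have hf : fib (swept A (0, t)) y' = Icc a (b + t) := by
        ext z
        constructor
        · rintro ⟨⟨⟨w, r⟩, τ⟩, ⟨hw, hτ⟩, he⟩
          simp only [Prod.smul_mk, smul_zero, Prod.mk_add_mk, add_zero, Prod.mk.injEq,
            smul_eq_mul] at he
          obtain ⟨rfl, rfl⟩ := he
          have hr : r ∈ fib A w := hw
          rw [hI] at hr
          exact ⟨by nlinarith [hr.1, hτ.1], by nlinarith [hr.2, hτ.2]⟩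
        · intro hz
          rcases le_or_gt z b with h | h
          · exact subset_swept A _ (show z ∈ fib A y' by rw [hI]; exact ⟨hz.1, h⟩)
          · have ht0 : 0 < t := by linarith [hz.2]
            refine ⟨((y', b), (z - b) / t), ⟨show b ∈ fib A y' by rw [hI]; exact ⟨hab, le_rfl⟩,
              div_nonneg (by linarith) ht, (div_le_one ht0).2 (by linarith [hz.2])⟩, ?_⟩
            simp [ht0.ne']
      rw [hf, hI, Real.volume_Icc, Real.volume_Icc, ← ENNReal.ofReal_add (by linarith) ht]
      congr 1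
      ring
    · rw [indicator_of_notMem hy, add_zero]
      have h1 : fib A y = ∅ := eq_empty_of_forall_notMem fun z hz => hy ⟨(y, z), hz, rfl⟩
      have h2 : fib (swept A (0, t)) y = ∅ := eq_empty_of_forall_notMem fun z hz => by
        obtain ⟨⟨⟨w, r⟩, τ⟩, ⟨hw, -⟩, he⟩ := hz
        simp at he
        exact hy ⟨(w, r), hw, he.1⟩
      rw [h1, h2]
  rw [gain, key, ENNReal.toReal_add hA.measure_lt_top.ne
    (ENNReal.mul_ne_top ENNReal.ofReal_ne_top hP.measure_lt_top.ne), ENNReal.toReal_mul,
    ENNReal.toReal_ofReal ht]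
  ring

/-- The gain is positively homogeneous. -/
theorem gain_smul {K : Set (Pt k)} (hK : IsCompact K) (hKc : Convex ℝ K) (u : Pt k) {r : ℝ}
    (hr : 0 ≤ r) : gain K (r • u) = r * gain K u := by
  by_cases hu : u = 0
  · subst hu; simp [gain_zero]
  match k, K, u, hK, hKc, hu with
  | 0, _, u, _, _, hu => exact absurd (Subsingleton.elim u 0) hu
  | j + 1, K, u, hK, hKc, hu =>
    obtain ⟨T, c, hc, hT1, hT⟩ := exists_vertical hu
    have hA : IsCompact (T.symm '' K) :=
      hK.image T.symm.toLinearMap.continuous_of_finiteDimensional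
    have hAc : Convex ℝ (T.symm '' K) := hKc.linear_image T.symm.toLinearMap
    have key : ∀ s : ℝ, 0 ≤ s → gain K (s • u) = c * (s * (volume (Prod.fst '' (T.symm '' K))).toReal) := by
      intro s hs
      rw [← gain_vertical hA hAc hs, ← gain_image T hT, image_image]
      simp only [LinearEquiv.apply_symm_apply, image_id']
      rw [show ((0 : Pt j), s) = s • ((0 : Pt j), (1 : ℝ)) by simp, map_smul, hT1]
    have h1 := key 1 zero_le_one
    rw [one_smul] at h1
    rw [key r hr, h1]
    ring

/-- The convex set bounded by the gains; for a convex body it is the projection body. -/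
def gainBody (K : Set (Pt k)) : Set (Pt k) := {y | ∀ u, y ⬝ᵥ u ≤ gain K u}

theorem isClosed_gainBody (K : Set (Pt k)) : IsClosed (gainBody K) := by
  simp only [gainBody, setOf_forall]
  exact isClosed_iInter fun u => isClosed_le
    (continuous_finset_sum _ fun i _ => (continuous_apply i).mul continuous_const) continuous_const

theorem gainBody_bounded {K : Set (Pt k)} : Bornology.IsBounded (gainBody K) := by
  classical
  refine (Metric.isBounded_closedBall (x := (0 : Pt k))
    (r := ∑ i, (|gain K (Pi.single i 1)| + |gain K (-Pi.single i 1)|))).subset fun y hy => ?_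
  rw [mem_closedBall_zero_iff, pi_norm_le_iff_of_nonneg
    (Finset.sum_nonneg fun i _ => add_nonneg (abs_nonneg _) (abs_nonneg _))]
  intro i
  refine le_trans ?_ (Finset.single_le_sum (f := fun i => |gain K (Pi.single i 1)| +
    |gain K (-Pi.single i 1)|) (fun j _ => add_nonneg (abs_nonneg _) (abs_nonneg _))
    (Finset.mem_univ i))
  have h1 := hy (Pi.single i 1)
  have h2 := hy (-Pi.single i 1)
  simp only [dotProduct_neg, dotProduct_single, mul_one] at h1 h2
  rw [Real.norm_eq_abs, abs_le]
  constructor <;> linarith [le_abs_self (gain K (Pi.single i 1)),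
    le_abs_self (gain K (-Pi.single i 1)), abs_nonneg (gain K (Pi.single i 1)),
    abs_nonneg (gain K (-Pi.single i 1))]

theorem gainBody_finite (K : Set (Pt k)) : volume (gainBody K) ≠ ⊤ :=
  (gainBody_bounded.measure_lt_top).ne

end Vale.Agent.P237
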